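import Vale.Agent.P199.Kurosh

/-!
From a central subfield to the centre, and the main theorem.
-/

namespace Vale.Agent.P199

/-- A finite set in an algebra finite over an algebraic extension lies in a finite subalgebra over
the ground field. -/
theorem exists_finite_subalgebra {k Z A : Type} [Field k] [Field Z] [Algebra k Z]
    [Algebra.IsAlgebraic k Z] [Ring A] [Algebra Z A] [Algebra k A] [IsScalarTower k Z A]
    [Module.Finite Z A] (s : Finset A) :
    ∃ A₀ : Subalgebra k A, Module.Finite k A₀ ∧ (s : Set A) ⊆ A₀ := by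
  classical
  let b := Module.finBasis Z A
  let ι := Fin (Module.finrank Z A)
  let S : Finset Z := (Finset.univ.image fun q : (ι × ι) × ι => b.repr (b q.1.1 * b q.1.2) q.2)
    ∪ ((insert 1 s) ×ˢ Finset.univ).image (fun q : A × ι => b.repr q.1 q.2)
  let Z₀ := Algebra.adjoin k (S : Set Z)
  haveI : Module.Finite k Z₀ := Module.Finite.iff_fg.2
    (fg_adjoin_of_finite S.finite_toSet fun z _ => (Algebra.IsAlgebraic.isAlgebraic z).isIntegral)
  let T : (ι → Z₀) →ₗ[k] A :=
    { toFun := fun c => ∑ i, (c i : Z) • b i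
      map_add' := fun c d => by simp [add_smul, Finset.sum_add_distrib]
      map_smul' := fun r c => by simp [Finset.smul_sum, smul_assoc] }
  have hmem : ∀ a : A, (∀ i, b.repr a i ∈ Z₀) → a ∈ LinearMap.range T := fun a ha =>
    ⟨fun i => ⟨b.repr a i, ha i⟩, b.sum_repr a⟩
  have hrepr : ∀ a : A, a ∈ LinearMap.range T → ∀ i, b.repr a i ∈ Z₀ := by
    rintro _ ⟨c, rfl⟩ i
    have e : b.repr (T c) i = (c i : Z) := by
      show b.repr (∑ l, (c l : Z) • b l) i = _
      rw [b.repr_sum_self]
    exact e ▸ (c i).2
  have hgen : ∀ a ∈ insert 1 s, a ∈ LinearMap.range T := fun a ha => hmem a fun i =>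
    Algebra.subset_adjoin (Finset.mem_coe.2
      (Finset.mem_union_right _ (Finset.mem_image.2 ⟨(a, i), by simp [ha], rfl⟩)))
  have hmul : ∀ a c : A, a ∈ LinearMap.range T → c ∈ LinearMap.range T → a * c ∈ LinearMap.range T := by
    intro a c ha hc
    refine hmem _ fun l => ?_
    rw [← b.sum_repr a, ← b.sum_repr c, Finset.sum_mul, map_sum, Finsupp.finsetSum_apply]
    refine Z₀.sum_mem fun i _ => ?_
    rw [Finset.mul_sum, map_sum, Finsupp.finsetSum_apply]
    refine Z₀.sum_mem fun j _ => ?_
    rw [smul_mul_smul_comm, map_smul, Finsupp.smul_apply, smul_eq_mul]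
    refine Z₀.mul_mem (Z₀.mul_mem (hrepr a ha i) (hrepr c hc j)) ?_
    exact Algebra.subset_adjoin (Finset.mem_coe.2 (by simp [S]))
  refine ⟨(LinearMap.range T).toSubalgebra (hgen 1 (Finset.mem_insert_self _ _)) hmul,
    Module.Finite.of_surjective T.rangeRestrict T.surjective_rangeRestrict,
    fun a ha => hgen a (Finset.mem_insert_of_mem ha)⟩

theorem finDivComm_of_algebraic {k Z : Type} [Field k] [Field Z] [Algebra k Z]
    [Algebra.IsAlgebraic k Z] (hk : FinDivComm k) : FinDivComm Z := by
  classical
  intro A _ _ hfin x y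
  haveI := hfin
  letI : Algebra k A := Algebra.compHom A (algebraMap k Z)
  haveI : IsScalarTower k Z A := IsScalarTower.of_algebraMap_eq fun _ => rfl
  obtain ⟨A₀, hA₀, hs⟩ := exists_finite_subalgebra (k := k) (Z := Z) ({x, y} : Finset A)
  have hu : ∀ a : A₀, IsUnit a ∨ a = 0 := fun a => by
    by_cases ha : a = 0
    · exact Or.inr ha
    have h0 : (a : A) ≠ 0 := fun h => ha (Subtype.ext h)
    have hinj : Function.Injective (LinearMap.mulLeft k a) := fun c d h =>
      Subtype.ext (mul_left_cancel₀ h0 (congrArg Subtype.val h))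
    obtain ⟨c, hc⟩ := LinearMap.surjective_of_injective hinj 1
    refine Or.inl ⟨⟨a, c, hc, hinj ?_⟩, rfl⟩
    show a * (c * a) = a * 1
    rw [← mul_assoc, show a * c = 1 from hc, one_mul, mul_one]
  letI : DivisionRing A₀ := DivisionRing.ofIsUnitOrEqZero hu
  exact congrArg Subtype.val (hk A₀ inferInstance ⟨x, hs (by simp)⟩ ⟨y, hs (by simp)⟩)

/-- A division ring algebraic over an uncountable field without noncommutative finite-dimensional
division algebras is commutative. -/
theorem commutative_of_algebraic {k : Type} [Field k] [Uncountable k] (hk : FinDivComm k)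
    {D : Type} [DivisionRing D] [Algebra k D] [Algebra.IsAlgebraic k D] :
    ∀ x y : D, x * y = y * x := by
  let Z := Subring.center D
  letI : Algebra k Z := ((algebraMap k D).codRestrict Z fun r =>
    Subring.mem_center_iff.2 fun d => (Algebra.commutes r d).symm).toAlgebra
  haveI : IsScalarTower k Z D := IsScalarTower.of_algebraMap_eq fun _ => rfl
  haveI : Algebra.IsAlgebraic k Z :=
    Algebra.IsAlgebraic.of_injective (IsScalarTower.toAlgHom k Z D) Subtype.val_injective
  haveI : Algebra.IsAlgebraic Z D := Algebra.IsAlgebraic.tower_top (K := k) _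
  haveI : Uncountable Z := (algebraMap k Z).injective.uncountable
  haveI : Algebra.IsCentral Z D := ⟨fun z hz => Algebra.mem_bot.2
    ⟨⟨z, Subring.mem_center_iff.2 fun d => Subalgebra.mem_center_iff.1 hz d⟩, rfl⟩⟩
  exact commutative_of_central (finDivComm_of_algebraic (Z := Z) hk) fun V _ _ _ _ _ x => isAlgebraic_end x

end Vale.Agent.P199
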