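import Mathlib

/-!
Algebraic division rings over fields with pronilpotent Galois structure: either they are finite
dimensional over the centre or they contain arbitrarily many commuting noncommutative
finite-dimensional subalgebras.
-/

namespace Vale.Agent.P199.Chain

open Polynomial

/-- Every nontrivial finite separable extension of a finite extension of `F` contains a Galois
extension of prime degree. -/
def CyclicSteps (F : Type) [Field F] : Prop :=
  ∀ (E : Type) [Field E] [Algebra F E] [FiniteDimensional F E] (L : Type) [Field L] [Algebra E L]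
    [FiniteDimensional E L] [Algebra.IsSeparable E L],
    1 < Module.finrank E L → ∃ M : IntermediateField E L,
      (Module.finrank E M).Prime ∧ IsGalois E M

variable {F : Type} [Field F] {D : Type} [DivisionRing D] [Algebra F D]

/-- Two finite-dimensional commuting subalgebras generate a finite-dimensional subalgebra. -/
theorem exists_finite_sup (A B : Subalgebra F D) (hA : FiniteDimensional F A)
    (hB : FiniteDimensional F B) (h : ∀ a ∈ A, ∀ b ∈ B, Commute a b) :
    ∃ C : Subalgebra F D, FiniteDimensional F C ∧ A ≤ C ∧ B ≤ C := by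
  let P : Submodule F D := A.toSubmodule * B.toSubmodule
  have hl : ∀ a ∈ A, ∀ b ∈ B, a * b ∈ P := fun a ha b hb => Submodule.mul_mem_mul ha hb
  have h1 : (1 : D) ∈ P := by simpa using hl 1 A.one_mem 1 B.one_mem
  have hm : ∀ x y, x ∈ P → y ∈ P → x * y ∈ P := by
    intro x y hx hy
    induction hx using Submodule.mul_induction_on' with
    | mem_mul_mem a ha b hb =>
      induction hy using Submodule.mul_induction_on' with
      | mem_mul_mem a' ha' b' hb' =>
        have e : a * b * (a' * b') = a * a' * (b * b') := by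
          rw [mul_assoc, ← mul_assoc b, ← (h a' ha' b hb).eq]; simp only [mul_assoc]
        rw [e]
        exact hl _ (A.mul_mem ha ha') _ (B.mul_mem hb hb')
      | add u _ v _ hu hv => rw [mul_add]; exact add_mem hu hv
    | add u _ v _ hu hv => rw [add_mul]; exact add_mem hu hv
  refine ⟨P.toSubalgebra h1 hm, ?_, fun a ha => ?_, fun b hb => ?_⟩
  · exact Module.Finite.iff_fg.2 (Submodule.FG.mul (Module.Finite.iff_fg.1 hA)
      (Module.Finite.iff_fg.1 hB))
  · simpa using hl a ha 1 B.one_mem
  · simpa using hl 1 A.one_mem b hb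

/-- Finitely many pairwise commuting algebraic elements lie in a finite-dimensional subalgebra all
of whose elements commute with whatever commutes with them. -/
theorem exists_finite_adjoin [Algebra.IsAlgebraic F D] (s : Finset D)
    (h : ∀ a ∈ s, ∀ b ∈ s, Commute a b) : FiniteDimensional F (Algebra.adjoin F (s : Set D)) := by
  classical
  induction s using Finset.induction_on with
  | empty =>
    rw [Finset.coe_empty, Algebra.adjoin_empty]
    infer_instance
  | @insert a s _ ih =>
    have h1 : FiniteDimensional F (Algebra.adjoin F {a}) :=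
      Module.Finite.iff_fg.2 (Algebra.IsAlgebraic.isAlgebraic a).isIntegral.fg_adjoin_singleton
    obtain ⟨C, hC, hle1, hle2⟩ := exists_finite_sup _ _ h1
      (ih fun x hx y hy => h x (Finset.mem_insert_of_mem hx) y (Finset.mem_insert_of_mem hy))
      fun x hx y hy => Algebra.commute_of_mem_adjoin_of_forall_mem_commute hy fun b hb =>
        (Algebra.commute_of_mem_adjoin_singleton_of_commute hx
          (h b (Finset.mem_insert_of_mem hb) a (Finset.mem_insert_self _ _))).symm
    haveI := hC
    have hle : Algebra.adjoin F ((insert a s : Finset D) : Set D) ≤ C :=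
      Algebra.adjoin_le fun x hx => by
        rcases Finset.mem_insert.1 (Finset.mem_coe.1 hx) with rfl | hx
        · exact hle1 (Algebra.self_mem_adjoin_singleton F x)
        · exact hle2 (Algebra.subset_adjoin hx)
    exact Submodule.finiteDimensional_of_le
      (show Subalgebra.toSubmodule (Algebra.adjoin F ((insert a s : Finset D) : Set D)) ≤
        Subalgebra.toSubmodule C from fun x hx => hle hx)

/-- Artin's lemma: a right relation valid after insertion of all elements of `A` gives a relation
with coefficients in the centraliser of `A`. -/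
theorem artin (A : Subalgebra F D) {n : ℕ} (v c : Fin n → D) (hc : c ≠ 0)
    (h : ∀ a ∈ A, ∑ i, v i * a * c i = 0) :
    ∃ d : Fin n → D, d ≠ 0 ∧ (∀ i, d i ∈ Subalgebra.centralizer F (A : Set D)) ∧
      ∑ i, v i * d i = 0 := by
  classical
  induction hk : (Finset.univ.filter fun i => c i ≠ 0).card using Nat.strong_induction_on
    generalizing c with
  | _ k ih =>
  obtain ⟨i0, hi0⟩ := Function.ne_iff.1 hc
  let d : Fin n → D := fun i => c i * (c i0)⁻¹
  have hd : ∀ a ∈ A, ∑ i, v i * a * d i = 0 := fun a ha => by
    simp only [d, ← mul_assoc, ← Finset.sum_mul, h a ha, zero_mul]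
  by_cases hz : ∀ i, d i ∈ Subalgebra.centralizer F (A : Set D)
  · refine ⟨d, fun e => ?_, hz, by simpa using hd 1 A.one_mem⟩
    have := congrFun e i0
    simp [d, mul_inv_cancel₀ hi0] at this
  · push Not at hz
    obtain ⟨i1, hi1⟩ := hz
    rw [Subalgebra.mem_centralizer_iff] at hi1
    push Not at hi1
    obtain ⟨b, hb, hne⟩ := hi1
    let e : Fin n → D := fun i => b * d i - d i * b
    refine ih _ ?_ e (fun h0 => hne (sub_eq_zero.1 (congrFun h0 i1))) ?_ rfl
    · rw [← hk]
      refine Finset.card_lt_card (Finset.ssubset_iff_of_subset ?_ |>.2 ⟨i0, by simpa using hi0, ?_⟩)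
      · intro i hi
        simp only [Finset.mem_filter, Finset.mem_univ, true_and] at hi ⊢
        intro hci
        exact hi (by simp [e, d, hci])
      · simp [e, d, mul_inv_cancel₀ hi0]
    · intro a ha
      simp only [e, mul_sub, Finset.sum_sub_distrib]
      have h1 := hd (a * b) (A.mul_mem ha hb)
      simp only [← mul_assoc] at h1 ⊢
      rw [h1, ← Finset.sum_mul, hd a ha, zero_mul, sub_zero]

theorem inv_mem_centralizer {S : Set D} {x : D} (hx : x ∈ Subalgebra.centralizer F S) :
    x⁻¹ ∈ Subalgebra.centralizer F S :=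
  Subalgebra.mem_centralizer_iff F |>.2 fun g hg =>
    (Commute.inv_right₀ (Subalgebra.mem_centralizer_iff F |>.1 hx g hg)).eq

/-- The centraliser of a set, as a division ring. -/
noncomputable abbrev centralizerDivisionRing (S : Set D) :
    DivisionRing (Subalgebra.centralizer F S) :=
  DivisionRing.ofIsUnitOrEqZero fun x => by
    by_cases hx : x = 0
    · exact Or.inr hx
    · have hx' : (x : D) ≠ 0 := fun h => hx (Subtype.ext h)
      exact Or.inl ⟨⟨x, ⟨(x : D)⁻¹, inv_mem_centralizer x.2⟩,
        Subtype.ext (mul_inv_cancel₀ hx'), Subtype.ext (inv_mul_cancel₀ hx')⟩, rfl⟩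

/-- If a finite-dimensional subalgebra has commutative centraliser then `D` is finite dimensional
over its centre. -/
theorem finite_of_centralizer_comm [Algebra.IsCentral F D] (A : Subalgebra F D)
    [FiniteDimensional F A]
    (hC : ∀ a ∈ Subalgebra.centralizer F (A : Set D),
      ∀ b ∈ Subalgebra.centralizer F (A : Set D), a * b = b * a) :
    Module.Finite F D := by
  classical
  set C := Subalgebra.centralizer F (A : Set D) with hCdef
  let bA := Module.finBasis F A
  set a := Module.finrank F A
  let Ind : ℕ → Prop := fun k => ∃ v : Fin k → D,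
    ∀ d : Fin k → D, (∀ i, d i ∈ C) → ∑ i, v i * d i = 0 → d = 0
  have hbound : ∀ k, Ind k → k ≤ a := by
    rintro k ⟨v, hv⟩
    by_contra hk
    push Not at hk
    have hli : ¬LinearIndependent Dᵐᵒᵖ
        (fun i => fun j => MulOpposite.op (v i * (bA j : D)) : Fin k → Fin a → Dᵐᵒᵖ) := by
      intro hli
      have := hli.fintype_card_le_finrank
      rw [Module.finrank_fintype_fun_eq_card, Fintype.card_fin, Fintype.card_fin] at this
      omega
    obtain ⟨g, hg, i, hi⟩ := Fintype.not_linearIndependent_iff.1 hli
    have hrel : ∀ x ∈ A, ∑ i, v i * x * (g i).unop = 0 := by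
      intro x hx
      let R : D →ₗ[F] D :=
        ∑ i, (LinearMap.mulRight F (g i).unop).comp (LinearMap.mulLeft F (v i))
      have hR : ∀ x, R x = ∑ i, v i * x * (g i).unop := fun x => by
        simp [R, LinearMap.sum_apply]
      have hz : R.comp A.val.toLinearMap = 0 := bA.ext fun j => by
        have hj := congrArg MulOpposite.unop (congrFun hg j)
        simpa [hR, Finset.sum_apply, Pi.smul_apply, Finset.unop_sum] using hj
      simpa [hR] using LinearMap.congr_fun hz ⟨x, hx⟩
    obtain ⟨d, hd0, hdC, hd⟩ := artin A v (fun i => (g i).unop)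
      (fun h0 => hi (MulOpposite.unop_injective (congrFun h0 i))) hrel
    exact hd0 (hv d hdC hd)
  set k := Nat.findGreatest Ind a with hkdef
  obtain ⟨v, hv⟩ : Ind k :=
    Nat.findGreatest_spec (m := 0) (Nat.zero_le a) ⟨Fin.elim0, fun d _ _ => funext fun i => i.elim0⟩
  have hspan : ∀ w : D, ∃ e : Fin k → D, (∀ i, e i ∈ C) ∧ w = ∑ i, v i * e i := by
    intro w
    have hnot : ¬ Ind (k + 1) := fun hI =>
      absurd (Nat.le_findGreatest (hbound _ hI) hI) (by omega)
    simp only [Ind] at hnot
    push Not at hnot
    obtain ⟨d, hdC, hd, hd0⟩ := hnot (Fin.snoc v w)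
    rw [Fin.sum_univ_castSucc] at hd
    simp only [Fin.snoc_castSucc, Fin.snoc_last] at hd
    have hl : d (Fin.last k) ≠ 0 := fun h0 => hd0 (funext fun i => by
      rw [h0, mul_zero, add_zero] at hd
      refine Fin.lastCases h0 (fun j => ?_) i
      exact congrFun (hv (fun j => d j.castSucc) (fun j => hdC _) hd) j)
    refine ⟨fun i => -(d i.castSucc * (d (Fin.last k))⁻¹),
      fun i => C.neg_mem (C.mul_mem (hdC _) (inv_mem_centralizer (hdC _))), ?_⟩
    have hw : w * d (Fin.last k) = -∑ i, v i * d i.castSucc := eq_neg_of_add_eq_zero_right hd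
    calc w = w * d (Fin.last k) * (d (Fin.last k))⁻¹ := by rw [mul_inv_cancel_right₀ hl]
      _ = _ := by rw [hw, neg_mul, Finset.sum_mul]; simp [mul_assoc]
  choose e heC he using hspan
  refine Module.rank_lt_aleph0_iff.1 (lt_of_le_of_lt (rank_le (n := k * k) ?_) (Cardinal.natCast_lt_aleph0))
  intro s hs
  by_contra hcard
  push Not at hcard
  letI : DivisionRing C := centralizerDivisionRing (F := F) (A : Set D)
  let x : Fin s.card → D := fun i => (s.equivFin.symm i : D)
  have hx : LinearIndependent F x := hs.comp _ s.equivFin.symm.injective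
  have hli : ¬LinearIndependent C (fun i => fun q : Fin k × Fin k =>
      (⟨e (x i * v q.1) q.2, heC _ _⟩ : C) : Fin s.card → Fin k × Fin k → C) := by
    intro hli
    have := hli.fintype_card_le_finrank
    rw [Module.finrank_fintype_fun_eq_card] at this
    simp only [Fintype.card_fin, Fintype.card_prod] at this
    omega
  obtain ⟨ω, hω, i, hi⟩ := Fintype.not_linearIndependent_iff.1 hli
  have hrel : ∀ j l, ∑ i, e (x i * v j) l * (ω i : D) = 0 := fun j l => by
    have := congrArg (Subtype.val : C → D) (congrFun hω (j, l))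
    simp only [Finset.sum_apply, Pi.smul_apply, smul_eq_mul, Pi.zero_apply,
      AddSubmonoidClass.coe_finsetSum, MulMemClass.coe_mul, ZeroMemClass.coe_zero] at this
    rw [← this]
    exact Finset.sum_congr rfl fun i _ => hC _ (heC _ _) _ (ω i).2
  have hbasis : ∀ j, ∑ i, x i * v j * (ω i : D) = 0 := fun j => by
    calc ∑ i, x i * v j * (ω i : D) = ∑ i, ∑ l, v l * (e (x i * v j) l * (ω i : D)) :=
          Finset.sum_congr rfl fun i _ => by
            rw [he (x i * v j), Finset.sum_mul]
            simp only [← he (x i * v j), mul_assoc]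
      _ = 0 := by
        rw [Finset.sum_comm]
        simp only [← Finset.mul_sum, hrel, mul_zero, Finset.sum_const_zero]
  obtain ⟨d, hd0, hdC, hd⟩ := artin (⊤ : Subalgebra F D) x (fun i => (ω i : D))
    (fun h0 => hi (Subtype.ext (congrFun h0 i))) (fun w _ => by
      calc ∑ i, x i * w * (ω i : D) = ∑ i, ∑ j, x i * v j * (ω i : D) * e w j :=
            Finset.sum_congr rfl fun i _ => by
              conv_lhs => rw [he w, Finset.mul_sum, Finset.sum_mul]
              refine Finset.sum_congr rfl fun j _ => ?_
              simp only [mul_assoc, hC _ (heC w j) _ (ω i).2]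
        _ = 0 := by
          rw [Finset.sum_comm]
          simp only [← Finset.sum_mul, hbasis, zero_mul, Finset.sum_const_zero])
  have hd' : ∀ i, ∃ r : F, algebraMap F D r = d i := fun i =>
    Algebra.mem_bot.1 (Algebra.IsCentral.out (Subalgebra.mem_center_iff.2 fun b =>
      Subalgebra.mem_centralizer_iff F |>.1 (hdC i) b Algebra.mem_top))
  choose r hr using hd'
  refine hd0 (funext fun i => ?_)
  have := Fintype.linearIndependent_iff.1 hx r (by
    rw [← hd]
    exact Finset.sum_congr rfl fun i _ => by rw [Algebra.smul_def, Algebra.commutes, hr]) i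
  rw [← hr i, this, map_zero]
  rfl

/-- An element conjugating a root to another root, found inside the kernels of the factors. -/
theorem exists_factor_kernel {M : Type} [Field M] (G : M[X] →+* Module.End F D) :
    ∀ (s : Multiset M) (w : D), w ≠ 0 → G (s.map fun r => X - C r).prod w = 0 →
      ∃ r ∈ s, ∃ u : D, u ≠ 0 ∧ G (X - C r) u = 0 := by
  intro s
  induction s using Multiset.induction_on with
  | empty => intro w hw h; simp at h; exact absurd h hw
  | cons r s ih =>
    intro w hw h
    rw [Multiset.map_cons, Multiset.prod_cons, map_mul, Module.End.mul_apply] at h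
    by_cases h0 : G (s.map fun r => X - C r).prod w = 0
    · obtain ⟨r', hr', hu⟩ := ih w hw h0
      exact ⟨r', Multiset.mem_cons_of_mem hr', hu⟩
    · exact ⟨r, Multiset.mem_cons_self r s, _, h0, h⟩

variable [Algebra.IsAlgebraic F D]

/-- Skolem–Noether for a Galois extension of prime degree, from the kernels of the factors. -/
theorem exists_conj (E M : Type) [Field E] [Field M] [Algebra F E] [Algebra E D]
    [IsScalarTower F E D] [Algebra E M] [FiniteDimensional E M] [IsGalois E M] (φ : M →ₐ[E] D)
    (y : M) (hy : IntermediateField.adjoin E {y} = ⊤) (hyW : φ y ∉ Subring.center D) :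
    ∃ (τ : M ≃ₐ[E] M) (u : D), u ≠ 0 ∧ (∀ z, φ z * u = u * φ (τ z)) ∧ τ y ≠ y ∧
      ∀ z, (τ.toRingEquiv ^ Module.finrank E M) z = z := by
  classical
  obtain ⟨v0, hv0⟩ : ∃ v0 : D, v0 * φ y ≠ φ y * v0 := by
    by_contra hall
    push Not at hall
    exact hyW (Subring.mem_center_iff.2 hall)
  let R : M →+* Module.End F D :=
    { toFun := fun z => LinearMap.mulRight F (φ z)
      map_one' := LinearMap.ext fun v => by simp
      map_mul' := fun z z' => LinearMap.ext fun v => by
        rw [mul_comm z z']
        simp [mul_assoc]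
      map_zero' := LinearMap.ext fun v => by simp
      map_add' := fun z z' => LinearMap.ext fun v => by simp [mul_add] }
  let Λ : D →+* Module.End F D :=
    { toFun := LinearMap.mulLeft F
      map_one' := LinearMap.ext fun v => by simp
      map_mul' := fun z z' => LinearMap.ext fun v => by simp [mul_assoc]
      map_zero' := LinearMap.ext fun v => by simp
      map_add' := fun z z' => LinearMap.ext fun v => by simp [add_mul] }
  let G : M[X] →+* Module.End F D :=
    Polynomial.eval₂RingHom' R (Λ (φ y)) fun z => LinearMap.ext fun v => by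
      simp [R, Λ, mul_assoc]
  have hG : ∀ r v, G (X - C r) v = φ y * v - v * φ r := fun r v => by
    rw [map_sub]
    simp [G, R, Λ]
  set mp := minpoly E y with hmp
  have hG0 : G (mp.map (algebraMap E M)) = 0 := by
    have hR : R.comp (algebraMap E M) = Λ.comp (algebraMap E D) := RingHom.ext fun e =>
      LinearMap.ext fun v => by
        simp only [RingHom.comp_apply, R, Λ, RingHom.coe_mk, MonoidHom.coe_mk, OneHom.coe_mk,
          LinearMap.mulRight_apply, LinearMap.mulLeft_apply, AlgHom.commutes]
        exact (Algebra.commutes e v).symm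
    show (mp.map (algebraMap E M)).eval₂ R (Λ (φ y)) = 0
    rw [Polynomial.eval₂_map, hR, ← Polynomial.hom_eval₂, ← Polynomial.aeval_def,
      Polynomial.aeval_algHom_apply, hmp, minpoly.aeval, map_zero, map_zero]
  have hsplit : (mp.map (algebraMap E M)).Splits := Normal.splits inferInstance y
  set roots := (mp.map (algebraMap E M)).roots with hroots
  have hyint : IsIntegral E y := IsIntegral.of_finite E y
  have hyroot : y ∈ roots := by
    rw [hroots, Polynomial.mem_roots']
    refine ⟨((minpoly.monic hyint).map _).ne_zero, ?_⟩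
    show (mp.map (algebraMap E M)).eval y = 0
    rw [Polynomial.eval_map, ← Polynomial.aeval_def, minpoly.aeval]
  have hprod : G ((roots.erase y).map fun r => X - C r).prod (φ y * v0 - v0 * φ y) = 0 := by
    rw [← hG, ← Module.End.mul_apply, ← map_mul]
    have he : ((roots.erase y).map fun r => X - C r).prod * (X - C y)
        = mp.map (algebraMap E M) := by
      conv_rhs => rw [hsplit.eq_prod_roots_of_monic ((minpoly.monic hyint).map _), ← hroots,
        ← Multiset.cons_erase hyroot, Multiset.map_cons, Multiset.prod_cons]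
      exact mul_comm _ _
    rw [he, hG0]
    rfl
  obtain ⟨r, hr, u, hu, hker⟩ := exists_factor_kernel G (roots.erase y) _
    (fun h => hv0 (sub_eq_zero.1 h).symm) hprod
  have hry : r ≠ y := fun h => by
    have hnd : roots.Nodup :=
      Polynomial.nodup_roots ((Polynomial.separable_map (algebraMap E M)).2
        (Algebra.IsSeparable.isSeparable E y))
    exact hnd.notMem_erase (h ▸ hr)
  rw [hG, sub_eq_zero] at hker
  obtain ⟨τ, hτ⟩ : ∃ τ : M ≃ₐ[E] M, τ y = r := by
    refine minpoly.exists_algEquiv_of_root' (Algebra.IsAlgebraic.isAlgebraic y) ?_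
    have := (Polynomial.mem_roots'.1 (Multiset.mem_of_mem_erase hr)).2
    rwa [Polynomial.IsRoot, Polynomial.eval_map, ← Polynomial.aeval_def] at this
  set p := Module.finrank E M
  have hτp : τ ^ p = 1 := by
    rw [show p = Nat.card (M ≃ₐ[E] M) from (IsGalois.card_aut_eq_finrank E M).symm]
    exact pow_card_eq_one'
  have hconj : ∀ z : M, φ z * u = u * φ (τ z) := by
    intro z
    have hz : z ∈ Algebra.adjoin E {y} := by
      rw [← IntermediateField.adjoin_simple_toSubalgebra_of_isAlgebraic
        (Algebra.IsAlgebraic.isAlgebraic y), hy]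
      trivial
    induction hz using Algebra.adjoin_induction with
    | mem w hw => rw [Set.mem_singleton_iff.1 hw, hτ]; exact hker
    | algebraMap e => rw [AlgEquiv.commutes, AlgHom.commutes, Algebra.commutes]
    | add a b _ _ ha hb => simp only [map_add, add_mul, mul_add, ha, hb]
    | mul a b _ _ ha hb =>
      simp only [map_mul, mul_assoc, hb]
      rw [← mul_assoc, ha, mul_assoc]
  refine ⟨τ, u, hu, hconj, hτ ▸ hry, fun z => ?_⟩
  have : ∀ n : ℕ, ∀ z, (τ.toRingEquiv ^ n) z = (τ ^ n) z := by
    intro n
    induction n with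
    | zero => intro z; rfl
    | succ n ih => intro z; rw [pow_succ, pow_succ]; exact ih (τ z)
  rw [this, hτp]
  rfl

/-- A conjugation of finite order of a subfield yields a noncommutative finite-dimensional
subalgebra. -/
theorem exists_of_conj {M : Type} [Field M] [Algebra F M] [FiniteDimensional F M] (φ : M →ₐ[F] D)
    (σ : M ≃+* M) (p : ℕ) (hp : 0 < p) (hσp : ∀ z, (σ ^ p) z = z) (u : D) (hu : u ≠ 0)
    (hconj : ∀ z, φ z * u = u * φ (σ z)) (hσ : ∃ z, σ z ≠ z) :
    ∃ Q : Subalgebra F D, FiniteDimensional F Q ∧ ∃ a ∈ Q, ∃ b ∈ Q, a * b ≠ b * a := by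
  classical
  obtain ⟨z0, hne⟩ := hσ
  have hpow : ∀ (i : ℕ) (z : M), φ z * u ^ i = u ^ i * φ ((σ ^ i) z) := by
    intro i
    induction i with
    | zero => intro z; simp
    | succ i ih =>
      intro z
      rw [pow_succ, ← mul_assoc, ih, mul_assoc, hconj, ← mul_assoc, pow_succ' σ]
      rfl
  set c := u ^ p with hc
  have hcz : ∀ z, φ z * c = c * φ z := fun z => by rw [hpow, hσp]
  let bM := Module.finBasis F M
  let gens : Finset D := insert c (Finset.univ.image fun i => φ (bM i))
  set K := Algebra.adjoin F (gens : Set D) with hK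
  have hKfin : FiniteDimensional F K := exists_finite_adjoin gens fun a ha b hb => by
    rcases Finset.mem_insert.1 ha with rfl | ha <;> rcases Finset.mem_insert.1 hb with rfl | hb
    · exact Commute.refl _
    · obtain ⟨j, -, rfl⟩ := Finset.mem_image.1 hb
      exact (hcz _).symm
    · obtain ⟨j, -, rfl⟩ := Finset.mem_image.1 ha
      exact hcz _
    · obtain ⟨i, -, rfl⟩ := Finset.mem_image.1 ha
      obtain ⟨j, -, rfl⟩ := Finset.mem_image.1 hb
      exact (Commute.all (bM i) (bM j)).map φ
  have hφK : ∀ z : M, φ z ∈ K := fun z => by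
    rw [← bM.sum_repr z, map_sum]
    refine K.sum_mem fun i _ => ?_
    rw [map_smul]
    exact K.smul_mem (Algebra.subset_adjoin
      (Finset.mem_insert_of_mem (Finset.mem_image_of_mem _ (Finset.mem_univ i)))) _
  have hswap : ∀ k ∈ K, ∃ k' ∈ K, k * u = u * k' := by
    intro k hk
    induction hk using Algebra.adjoin_induction with
    | mem w hw =>
      rcases Finset.mem_insert.1 (Finset.mem_coe.1 hw) with rfl | hw
      · exact ⟨c, Algebra.subset_adjoin (Finset.mem_insert_self _ _),
          ((Commute.refl u).pow_left p).eq⟩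
      · obtain ⟨j, -, rfl⟩ := Finset.mem_image.1 hw
        exact ⟨_, hφK _, hconj _⟩
    | algebraMap e => exact ⟨_, K.algebraMap_mem e, Algebra.commutes _ _⟩
    | add a b _ _ ha hb =>
      obtain ⟨a', ha', e1⟩ := ha
      obtain ⟨b', hb', e2⟩ := hb
      exact ⟨a' + b', K.add_mem ha' hb', by rw [add_mul, mul_add, e1, e2]⟩
    | mul a b _ _ ha hb =>
      obtain ⟨a', ha', e1⟩ := ha
      obtain ⟨b', hb', e2⟩ := hb
      exact ⟨a' * b', K.mul_mem ha' hb', by
        rw [mul_assoc, e2, ← mul_assoc, e1, mul_assoc]⟩
  have hswapn : ∀ (j : ℕ), ∀ k ∈ K, ∃ k' ∈ K, k * u ^ j = u ^ j * k' := by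
    intro j
    induction j with
    | zero => intro k hk; exact ⟨k, hk, by simp⟩
    | succ j ih =>
      intro k hk
      obtain ⟨k1, hk1, e1⟩ := ih k hk
      obtain ⟨k2, hk2, e2⟩ := hswap k1 hk1
      exact ⟨k2, hk2, by rw [pow_succ, ← mul_assoc, e1, mul_assoc, e2, mul_assoc]⟩
  let U : Submodule F D := Submodule.span F (Set.range fun i : Fin p => u ^ (i : ℕ))
  let P : Submodule F D := U * Subalgebra.toSubmodule K
  have hnorm : ∀ n : ℕ, ∀ k ∈ K, u ^ n * k ∈ P := by
    intro n k hk
    have e : u ^ n = u ^ (n % p) * c ^ (n / p) := by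
      rw [hc, ← pow_mul, ← pow_add, Nat.mod_add_div]
    rw [e, mul_assoc]
    exact Submodule.mul_mem_mul (Submodule.subset_span ⟨⟨n % p, Nat.mod_lt _ hp⟩, rfl⟩)
      (K.mul_mem (K.pow_mem (Algebra.subset_adjoin (Finset.mem_insert_self _ _)) _) hk)
  have h1 : (1 : D) ∈ P := by simpa using hnorm 0 1 K.one_mem
  have hm : ∀ a b, a ∈ P → b ∈ P → a * b ∈ P := by
    intro a b ha hb
    induction ha using Submodule.mul_induction_on' with
    | mem_mul_mem a1 ha1 k hk =>
      induction ha1 using Submodule.span_induction with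
      | mem w hw =>
        obtain ⟨i, rfl⟩ := hw
        induction hb using Submodule.mul_induction_on' with
        | mem_mul_mem b1 hb1 k' hk' =>
          induction hb1 using Submodule.span_induction with
          | mem w hw =>
            obtain ⟨j, rfl⟩ := hw
            obtain ⟨k2, hk2, e2⟩ := hswapn j k hk
            have e : u ^ (i : ℕ) * k * (u ^ (j : ℕ) * k')
                = u ^ ((i : ℕ) + (j : ℕ)) * (k2 * k') := by
              rw [pow_add, mul_assoc, ← mul_assoc k, e2]
              simp only [mul_assoc]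
            rw [e]
            exact hnorm _ _ (K.mul_mem hk2 hk')
          | zero => simp
          | add a b _ _ ha hb => rw [add_mul, mul_add]; exact add_mem ha hb
          | smul t a _ ha => rw [smul_mul_assoc, mul_smul_comm]; exact P.smul_mem t ha
        | add a _ b _ ha hb => rw [mul_add]; exact add_mem ha hb
      | zero => simp
      | add a b _ _ ha hb => rw [add_mul, add_mul]; exact add_mem ha hb
      | smul t a _ ha => rw [smul_mul_assoc, smul_mul_assoc]; exact P.smul_mem t ha
    | add a _ b _ ha hb => rw [add_mul]; exact add_mem ha hb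
  refine ⟨P.toSubalgebra h1 hm, ?_, φ (σ z0), ?_, u, ?_, fun e => hne ?_⟩
  · exact Module.Finite.iff_fg.2 (Submodule.FG.mul (Submodule.fg_span (Set.finite_range _))
      (Module.Finite.iff_fg.1 hKfin))
  · simpa using hnorm 0 _ (hφK (σ z0))
  · simpa using hnorm 1 1 K.one_mem
  · exact φ.toRingHom.injective (mul_right_cancel₀ hu (e.trans (hconj z0).symm))

/-- A primitive element of a nontrivial separable extension is not in the ground field. -/
theorem exists_generator (E M : Type) [Field E] [Field M] [Algebra E M] [FiniteDimensional E M]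
    [Algebra.IsSeparable E M] (h : 1 < Module.finrank E M) :
    ∃ y : M, IntermediateField.adjoin E {y} = ⊤ ∧ ∀ e : E, algebraMap E M e ≠ y := by
  obtain ⟨y, hy⟩ := Field.exists_primitive_element E M
  refine ⟨y, hy, fun e he => ?_⟩
  have h1 : IntermediateField.adjoin E {y} = ⊥ :=
    IntermediateField.adjoin_simple_eq_bot_iff.2 (he ▸ IntermediateField.algebraMap_mem _ e)
  have h2 : Module.finrank E M = 1 := by
    rw [← IntermediateField.finrank_top', ← hy, h1, IntermediateField.finrank_bot]
  omega

/-- An element of the field generated by `x` whose value lies in `W` is in the ground field. -/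
theorem eq_algebraMap_of_aeval_mem {E W : Type} [Field E] [Field W] [Algebra E W] [Algebra E D]
    [Algebra W D] [IsScalarTower E W D] {g : E[X]} {x : D} (hgmon : g.Monic)
    (hgmap : g.map (algebraMap E W) = minpoly W x) (hxint : IsIntegral W x)
    (ψ : AdjoinRoot g →ₐ[E] D) (hψ : ψ (AdjoinRoot.root g) = x) (z : AdjoinRoot g) (w : W)
    (hz : algebraMap W D w = ψ z) : ∃ e : E, z = algebraMap E (AdjoinRoot g) e := by
  obtain ⟨q, rfl⟩ := AdjoinRoot.mk_surjective z
  have hh : AdjoinRoot.mk g (q %ₘ g) = AdjoinRoot.mk g q := by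
    rw [AdjoinRoot.mk_eq_mk]
    exact ⟨-(q /ₘ g), by linear_combination Polynomial.modByMonic_add_div q g⟩
  rw [← hh] at hz ⊢
  rw [← AdjoinRoot.aeval_eq, ← Polynomial.aeval_algHom_apply, hψ] at hz
  let P : W[X] := (q %ₘ g).map (algebraMap E W) - C w
  have hP : aeval x P = 0 := by
    rw [map_sub, Polynomial.aeval_map_algebraMap, aeval_C, hz, sub_self]
  have hdeg : P.degree < (minpoly W x).degree := by
    refine lt_of_le_of_lt (degree_sub_le _ _) (max_lt ?_ ?_)
    · rw [← hgmap, Polynomial.degree_map, Polynomial.degree_map]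
      exact Polynomial.degree_modByMonic_lt q hgmon
    · exact lt_of_le_of_lt degree_C_le (minpoly.degree_pos hxint)
  have hP0 : P = 0 := by
    by_contra hne0
    exact absurd (minpoly.degree_le_of_ne_zero W x hne0 hP) (not_le.2 hdeg)
  have hh0 : (q %ₘ g).degree ≤ 0 := by
    rw [← Polynomial.degree_map (q %ₘ g) (algebraMap E W), sub_eq_zero.1 hP0]
    exact degree_C_le
  refine ⟨(q %ₘ g).coeff 0, ?_⟩
  conv_lhs => rw [Polynomial.eq_C_of_degree_le_zero hh0]
  exact AdjoinRoot.mk_C _

/-- The finite-dimensional noncommutative subalgebra attached to a separable element. -/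
theorem noncomm_of_separable (E W : Type) [Field E] [Field W] [Algebra F E] [FiniteDimensional F E]
    [Algebra E W] [Algebra E D] [Algebra W D] [IsScalarTower E W D] [IsScalarTower F E D] (x : D)
    {g : E[X]} [Fact (Irreducible g)] (hgmon : g.Monic)
    (hgmap : g.map (algebraMap E W) = minpoly W x) (hsep : IsSeparable W x) (hxint : IsIntegral W x)
    (hW : ∀ d ∈ Subring.center D, ∃ w : W, algebraMap W D w = d) (hxW : x ∉ Subring.center D)
    (hN : ∀ (L : Type) [Field L] [Algebra E L] [FiniteDimensional E L] [Algebra.IsSeparable E L],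
      1 < Module.finrank E L → ∃ M : IntermediateField E L,
        (Module.finrank E M).Prime ∧ IsGalois E M) :
    ∃ Q : Subalgebra F D, FiniteDimensional F Q ∧ ∃ a ∈ Q, ∃ b ∈ Q, a * b ≠ b * a := by
  have hgsep : g.Separable :=
    (Polynomial.separable_map (algebraMap E W)).1 (by rw [hgmap]; exact hsep)
  have hgx : aeval x g = 0 := by
    rw [← Polynomial.aeval_map_algebraMap W x g, hgmap, minpoly.aeval]
  have hg0 : g ≠ 0 := hgmon.ne_zero
  haveI : Module.Finite E (AdjoinRoot g) := (AdjoinRoot.powerBasis hg0).finite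
  haveI : Algebra.IsSeparable E (AdjoinRoot g) := by
    have hroot : IsSeparable E (AdjoinRoot.root g) :=
      Polynomial.Separable.of_dvd hgsep
        (minpoly.dvd E _ (by rw [AdjoinRoot.aeval_eq, AdjoinRoot.mk_self]))
    haveI := IntermediateField.isSeparable_adjoin_simple_iff_isSeparable E (AdjoinRoot g) |>.2 hroot
    have htop : IntermediateField.adjoin E {AdjoinRoot.root g} = ⊤ := eq_top_iff.2 fun z _ => by
      induction z using AdjoinRoot.induction_on with
      | ih q =>
        rw [← AdjoinRoot.aeval_eq q]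
        exact IntermediateField.algebra_adjoin_le_adjoin E _
          (Polynomial.aeval_mem_adjoin_singleton E _)
    exact Algebra.IsSeparable.of_algHom E _
      (((IntermediateField.equivOfEq htop).trans IntermediateField.topEquiv).symm.toAlgHom)
  have hn : 1 < Module.finrank E (AdjoinRoot g) := by
    rw [(AdjoinRoot.powerBasis hg0).finrank, AdjoinRoot.powerBasis_dim,
      ← Polynomial.natDegree_map (algebraMap E W), hgmap]
    rcases Nat.lt_or_ge 1 (minpoly W x).natDegree with h | h
    · exact h
    · have h1 : (minpoly W x).natDegree = 1 := by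
        have := minpoly.natDegree_pos hxint (A := W)
        omega
      obtain ⟨w, hw⟩ := minpoly.natDegree_eq_one_iff.1 h1
      exact absurd (hw ▸ Subring.mem_center_iff.2 fun d => (Algebra.commutes w d).symm) hxW
  obtain ⟨M, hp, hgal⟩ := hN (AdjoinRoot g) hn
  haveI := hgal
  let ψ : AdjoinRoot g →ₐ[E] D := Ideal.Quotient.liftₐ _ (aeval x) fun q hq => by
    obtain ⟨h, rfl⟩ := Ideal.mem_span_singleton.1 hq
    rw [map_mul, hgx, zero_mul]
  let φ : M →ₐ[E] D := ψ.comp M.val
  have hφ : Function.Injective φ := φ.toRingHom.injective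
  obtain ⟨y, hy, hybot⟩ := exists_generator E M hp.one_lt
  have hyW : φ y ∉ Subring.center D := fun hyc => by
    obtain ⟨w, hw⟩ := hW _ hyc
    obtain ⟨e, he⟩ := eq_algebraMap_of_aeval_mem (E := E) hgmon hgmap hxint ψ
      (by rw [show AdjoinRoot.root g = AdjoinRoot.mk g X from rfl]; exact aeval_X x)
      (M.val y) w hw
    exact hybot e (Subtype.ext he.symm)
  obtain ⟨τ, u, hu, hconj, hτy, hτp⟩ := exists_conj (F := F) E M φ y hy hyW
  haveI : FiniteDimensional F M := Module.Finite.trans E M
  exact exists_of_conj (AlgHom.restrictScalars F φ : M →ₐ[F] D) τ.toRingEquiv (Module.finrank E M)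
    hp.pos hτp u hu
    hconj ⟨y, hτy⟩

/-- A noncommutative algebraic division algebra contains a noncommutative finite-dimensional
subalgebra. -/
theorem exists_noncomm (hN : CyclicSteps F) (hD : ∃ a b : D, a * b ≠ b * a) :
    ∃ Q : Subalgebra F D, FiniteDimensional F Q ∧ ∃ a ∈ Q, ∃ b ∈ Q, a * b ≠ b * a := by
  classical
  let W := Subring.center D
  let ι : F →+* W := (algebraMap F D).codRestrict W fun r =>
    Subring.mem_center_iff.2 fun g => (Algebra.commutes r g).symm
  letI : Algebra F W := ι.toAlgebra
  haveI : IsScalarTower F W D := IsScalarTower.of_algebraMap_eq fun _ => rfl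
  haveI : Algebra.IsAlgebraic W D := Algebra.IsAlgebraic.tower_top (K := F) W
  have hint : ∀ w : W, IsIntegral F w := fun w =>
    (isIntegral_algHom_iff (IsScalarTower.toAlgHom F W D) Subtype.val_injective).1
      (Algebra.IsAlgebraic.isAlgebraic (w : D)).isIntegral
  have hne : W ≠ ⊤ := fun h => by
    obtain ⟨a, b, hab⟩ := hD
    exact hab (Subring.mem_center_iff.1 (h ▸ Subring.mem_top b : b ∈ W) a)
  obtain ⟨x, hxW, hsep⟩ := JacobsonNoether.exists_separable_and_not_isCentral D hne
  have hxint : IsIntegral W x := (Algebra.IsAlgebraic.isAlgebraic x).isIntegral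
  set f := minpoly W x with hf
  let S : Finset W := f.support.image f.coeff
  let E := IntermediateField.adjoin F (S : Set W)
  haveI : FiniteDimensional F E := IntermediateField.finiteDimensional_adjoin fun w _ => hint w
  have hlift : f ∈ Polynomial.lifts (algebraMap E W) := by
    rw [Polynomial.lifts_iff_coeff_lifts]
    intro n
    by_cases hn : n ∈ f.support
    · exact ⟨⟨f.coeff n, IntermediateField.subset_adjoin F _
        (Finset.mem_image_of_mem _ hn)⟩, rfl⟩
    · exact ⟨0, by rw [map_zero, Polynomial.notMem_support_iff.1 hn]⟩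
  obtain ⟨g, hgmap, hgdeg, hgmon⟩ := Polynomial.lifts_and_degree_eq_and_monic hlift
    (minpoly.monic hxint)
  haveI : Fact (Irreducible g) := ⟨Polynomial.Monic.irreducible_of_irreducible_map
    (algebraMap E W) g hgmon (by rw [hgmap]; exact minpoly.irreducible hxint)⟩
  haveI : IsScalarTower F E D := IsScalarTower.of_algebraMap_eq fun _ => rfl
  exact noncomm_of_separable E W x hgmon hgmap hsep hxint
    (fun d hd => ⟨⟨d, hd⟩, rfl⟩) hxW (hN E)

/-- Either finite over the centre, or arbitrarily many commuting noncommutative finite-dimensional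
subalgebras, all inside one finite-dimensional subalgebra. -/
theorem finite_or_family [Algebra.IsCentral F D] (hN : CyclicSteps F)
    (hfin : ¬ Module.Finite F D) :
    ∀ m : ℕ, ∃ (A : Subalgebra F D) (Q : Fin m → Subalgebra F D), FiniteDimensional F A ∧
      (∀ i, Q i ≤ A ∧ FiniteDimensional F (Q i) ∧ ∃ a ∈ Q i, ∃ b ∈ Q i, a * b ≠ b * a) ∧
      ∀ i j, i ≠ j → ∀ a ∈ Q i, ∀ b ∈ Q j, Commute a b := by
  intro m
  induction m with
  | zero => exact ⟨⊥, Fin.elim0, inferInstance, fun i => i.elim0, fun i => i.elim0⟩
  | succ m ih =>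
    obtain ⟨A, Q, hA, hQ, hcomm⟩ := ih
    set C := Subalgebra.centralizer F (A : Set D) with hCdef
    have hnc : ∃ a b : C, a * b ≠ b * a := by
      by_contra hall
      push Not at hall
      exact hfin (finite_of_centralizer_comm A fun a ha b hb =>
        congrArg Subtype.val (hall ⟨a, ha⟩ ⟨b, hb⟩))
    letI : DivisionRing C := centralizerDivisionRing (F := F) (A : Set D)
    haveI : Algebra.IsAlgebraic F C := Algebra.IsAlgebraic.of_injective C.val Subtype.val_injective
    obtain ⟨Q0, hQ0, a, ha, b, hb, hab⟩ := exists_noncomm (D := C) hN hnc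
    let Q1 : Subalgebra F D := Q0.map C.val
    haveI : FiniteDimensional F Q0 := hQ0
    have hQ1 : FiniteDimensional F Q1 :=
      Module.Finite.equiv (Q0.equivMapOfInjective C.val Subtype.val_injective).toLinearEquiv
    have hAQ : ∀ a ∈ A, ∀ b ∈ Q1, Commute a b := by
      rintro a ha _ ⟨q, -, rfl⟩
      exact Subalgebra.mem_centralizer_iff F |>.1 q.2 a ha
    obtain ⟨A', hA', hle, hle'⟩ := exists_finite_sup A Q1 hA hQ1 hAQ
    refine ⟨A', Fin.snoc Q Q1, hA', fun i => ?_, fun i j hij => ?_⟩
    · refine Fin.lastCases ?_ (fun j => ?_) i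
      · rw [Fin.snoc_last]
        exact ⟨hle', hQ1, _, ⟨a, ha, rfl⟩, _, ⟨b, hb, rfl⟩, fun h => hab (Subtype.ext h)⟩
      · rw [Fin.snoc_castSucc]
        exact ⟨(hQ j).1.trans hle, (hQ j).2⟩
    · revert hij
      refine Fin.lastCases ?_ (fun i' => ?_) i <;> refine Fin.lastCases ?_ (fun j' => ?_) j <;>
        intro hij <;> simp only [Fin.snoc_last, Fin.snoc_castSucc]
      · exact absurd rfl hij
      · exact fun a ha b hb => (hAQ b ((hQ j').1 hb) a ha).symm
      · exact fun a ha b hb => hAQ a ((hQ i').1 ha) b hb
      · exact hcomm i' j' fun h => hij (congrArg Fin.castSucc h)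

end Vale.Agent.P199.Chain
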