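import Mathlib

/-!
A finite-dimensional algebra generated by a field and a unit acting on it as an automorphism of
prime order is a matrix algebra of size divisible by that prime, when all finite-dimensional
division algebras over the ground field are commutative.
-/

namespace Vale.Agent.P199

/-- All finite-dimensional division algebras over the field are commutative. -/
def FinDivComm (F : Type) [Field F] : Prop :=
  ∀ (A : Type) [DivisionRing A] [Algebra F A], Module.Finite F A → ∀ x y : A, x * y = y * x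

variable {F : Type} [Field F] {K : Type} [Field K] [Algebra F K] {B : Type} [Ring B] [Algebra F B]
  (κ : K →ₐ[F] B) (σ : K ≃ₐ[F] K)

/-- Distinct powers of the automorphism give independent coefficients on the right. -/
theorem right_indep (U : B) (hU : ∀ k, U * κ k = κ (σ k) * U) (hunit : IsUnit U) {p : ℕ}
    (hinj : Set.InjOn (fun i => σ ^ i) (Set.Iio p)) :
    ∀ (s : Finset ℕ), (∀ i ∈ s, i < p) → ∀ c : ℕ → B, (∀ i k, Commute (c i) (κ k)) →
      ∑ i ∈ s, c i * U ^ i = 0 → ∀ i ∈ s, c i = 0 := by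
  have hpow : ∀ (i : ℕ) k, U ^ i * κ k = κ ((σ ^ i) k) * U ^ i := by
    intro i
    induction i with
    | zero => simp
    | succ i ih =>
      intro k
      rw [pow_succ, mul_assoc, hU, ← mul_assoc, ih, pow_succ σ, AlgEquiv.mul_apply, mul_assoc]
  intro s
  induction s using Finset.induction_on with
  | empty => simp
  | insert a t hat ih =>
    intro hs c hc h
    have ht : ∀ i ∈ t, i < p := fun i hi => hs i (Finset.mem_insert_of_mem hi)
    have h2 : ∀ k, ∑ i ∈ t, (c i * κ ((σ ^ i) k - (σ ^ a) k)) * U ^ i = 0 := by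
      intro k
      have h3 : ∑ i ∈ insert a t, (c i * κ ((σ ^ i) k - (σ ^ a) k)) * U ^ i = 0 := by
        calc ∑ i ∈ insert a t, (c i * κ ((σ ^ i) k - (σ ^ a) k)) * U ^ i
            = (∑ i ∈ insert a t, c i * U ^ i) * κ k
              - κ ((σ ^ a) k) * ∑ i ∈ insert a t, c i * U ^ i := by
              rw [Finset.sum_mul, Finset.mul_sum, ← Finset.sum_sub_distrib]
              refine Finset.sum_congr rfl fun i _ => ?_
              rw [mul_assoc (c i) (U ^ i), hpow, ← mul_assoc, ← mul_assoc, map_sub, mul_sub,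
                sub_mul, ← (hc i _).eq]
          _ = 0 := by rw [h, zero_mul, mul_zero, sub_zero]
      rwa [Finset.sum_insert hat, sub_self, map_zero, mul_zero, zero_mul, zero_add] at h3
    have h4 : ∀ i ∈ t, c i = 0 := by
      intro i hi
      have hne : σ ^ i ≠ σ ^ a := fun e =>
        hat (hinj (ht i hi) (hs a (Finset.mem_insert_self a t)) e ▸ hi)
      obtain ⟨k, hk⟩ := DFunLike.ne_iff.1 hne
      have := ih ht (fun i => c i * κ ((σ ^ i) k - (σ ^ a) k))
        (fun i k' => (hc i k').mul_left ((Commute.all _ k').map κ)) (h2 k) i hi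
      exact ((isUnit_iff_ne_zero.2 (sub_ne_zero.2 hk)).map κ).mul_left_eq_zero.1 this
    intro i hi
    rcases Finset.mem_insert.1 hi with rfl | hi
    · rw [Finset.sum_insert hat, Finset.sum_eq_zero fun b hb => by rw [h4 b hb, zero_mul],
        add_zero] at h
      exact (hunit.pow i).mul_left_eq_zero.1 h
    · exact h4 i hi

/-- Distinct powers of the automorphism are independent with coefficients in any left module. -/
theorem left_indep {p : ℕ} (hinj : Set.InjOn (fun i => σ ^ i) (Set.Iio p)) :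
    ∀ (s : Finset ℕ), (∀ i ∈ s, i < p) → ∀ c : ℕ → B,
      (∀ k, ∑ i ∈ s, κ ((σ ^ i) k) * c i = 0) → ∀ i ∈ s, c i = 0 := by
  intro s
  induction s using Finset.induction_on with
  | empty => simp
  | insert a t hat ih =>
    intro hs c h
    have ht : ∀ i ∈ t, i < p := fun i hi => hs i (Finset.mem_insert_of_mem hi)
    have h4 : ∀ i ∈ t, c i = 0 := by
      intro i hi
      have hne : σ ^ i ≠ σ ^ a := fun e =>
        hat (hinj (ht i hi) (hs a (Finset.mem_insert_self a t)) e ▸ hi)
      obtain ⟨k', hk⟩ := DFunLike.ne_iff.1 hne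
      have h2 : ∀ k, ∑ i ∈ t, κ ((σ ^ i) k) * (κ ((σ ^ i) k' - (σ ^ a) k') * c i) = 0 := by
        intro k
        have h3 : ∑ i ∈ insert a t, κ ((σ ^ i) k) * (κ ((σ ^ i) k' - (σ ^ a) k') * c i) = 0 := by
          calc ∑ i ∈ insert a t, κ ((σ ^ i) k) * (κ ((σ ^ i) k' - (σ ^ a) k') * c i)
              = (∑ i ∈ insert a t, κ ((σ ^ i) (k * k')) * c i)
                - κ ((σ ^ a) k') * ∑ i ∈ insert a t, κ ((σ ^ i) k) * c i := by
                rw [Finset.mul_sum, ← Finset.sum_sub_distrib]
                refine Finset.sum_congr rfl fun i _ => ?_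
                rw [← mul_assoc, ← mul_assoc, ← map_mul κ, ← map_mul κ, ← sub_mul, ← map_sub κ,
                  map_mul (σ ^ i)]
                ring_nf
            _ = 0 := by rw [h, h, mul_zero, sub_zero]
        rwa [Finset.sum_insert hat, sub_self, map_zero, zero_mul, mul_zero, zero_add] at h3
      exact ((isUnit_iff_ne_zero.2 (sub_ne_zero.2 hk)).map κ).mul_right_eq_zero.1
        (ih ht (fun i => κ ((σ ^ i) k' - (σ ^ a) k') * c i) h2 i hi)
    intro i hi
    rcases Finset.mem_insert.1 hi with rfl | hi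
    · have := h 1
      rw [Finset.sum_insert hat, Finset.sum_eq_zero fun b hb => by rw [h4 b hb, mul_zero],
        add_zero, map_one, map_one, one_mul] at this
      exact this
    · exact h4 i hi

variable [Nontrivial B] [Module.Finite F B]

/-- The crossed algebra is a matrix algebra of size divisible by the prime. -/
theorem exists_matrix (hF : FinDivComm F) {p : ℕ} (hp : p.Prime) (hσp : σ ^ p = 1) (hσ : σ ≠ 1)
    (U : Bˣ) (hU : ∀ k, (U : B) * κ k = κ (σ k) * U)
    (hgen : Algebra.adjoin F (Set.range κ ∪ {(U : B)}) = ⊤)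
    (hcen : ∀ x : B, (∀ y, x * y = y * x) → x ≠ 0 → ∀ y, x * y = 0 → y = 0) :
    ∃ (q : ℕ) (Δ : Type) (_ : Ring Δ) (_ : Algebra F Δ),
      p ∣ q ∧ Nonempty (Matrix (Fin q) (Fin q) Δ →ₐ[F] B) := by
  classical
  haveI := Fact.mk hp
  have hord : orderOf σ = p := orderOf_eq_prime hσp hσ
  have hinj : Set.InjOn (fun i => σ ^ i) (Set.Iio p) := hord ▸ pow_injOn_Iio_orderOf
  have hpow : ∀ (i : ℕ) k, (U : B) ^ i * κ k = κ ((σ ^ i) k) * (U : B) ^ i := by
    intro i
    induction i with
    | zero => simp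
    | succ i ih =>
      intro k
      rw [pow_succ, mul_assoc, hU, ← mul_assoc, ih, pow_succ σ, AlgEquiv.mul_apply, mul_assoc]
  set C := Algebra.adjoin F (Set.range κ ∪ {(U : B) ^ p}) with hCdef
  have hκC : ∀ k, κ k ∈ C := fun k => Algebra.subset_adjoin (Or.inl ⟨k, rfl⟩)
  have hUC : (U : B) ^ p ∈ C := Algebra.subset_adjoin (Or.inr rfl)
  have hgencomm : ∀ x ∈ Set.range κ ∪ {(U : B) ^ p}, ∀ y ∈ Set.range κ ∪ {(U : B) ^ p},
      Commute x y := by
    have h1 : ∀ k, Commute ((U : B) ^ p) (κ k) := fun k => by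
      show _ = _
      rw [hpow, hσp]; rfl
    rintro x (⟨k, rfl⟩ | rfl) y (⟨k', rfl⟩ | rfl)
    · exact (Commute.all k k').map κ
    · exact (h1 k).symm
    · exact h1 k'
    · exact Commute.refl _
  have hC : ∀ x ∈ C, ∀ y ∈ C, Commute x y := by
    intro x hx y hy
    induction hx, hy using Algebra.adjoin_induction₂ with
    | mem_mem x y hx hy => exact hgencomm x hx y hy
    | algebraMap_both r s => exact Algebra.commute_algebraMap_left r _
    | algebraMap_left r y _ => exact Algebra.commute_algebraMap_left r _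
    | algebraMap_right r x _ => exact Algebra.commute_algebraMap_right r _
    | add_left x y z _ _ _ h1 h2 => exact h1.add_left h2
    | add_right x y z _ _ _ h1 h2 => exact h1.add_right h2
    | mul_left x y z _ _ _ h1 h2 => exact h1.mul_left h2
    | mul_right x y z _ _ _ h1 h2 => exact h1.mul_right h2
  have hCκ : ∀ c ∈ C, ∀ k, Commute c (κ k) := fun c hc k => hC c hc _ (hκC k)
  have hconj : ∀ c ∈ C, ∃ c' ∈ C, (U : B) * c = c' * U := by
    intro c hc
    induction hc using Algebra.adjoin_induction with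
    | mem x hx =>
      rcases hx with ⟨k, rfl⟩ | rfl
      · exact ⟨_, hκC _, hU k⟩
      · exact ⟨_, hUC, (Commute.self_pow _ _).eq⟩
    | algebraMap r => exact ⟨_, C.algebraMap_mem r, (Algebra.commutes r _).symm⟩
    | add x y _ _ hx hy =>
      obtain ⟨x', hx', ex⟩ := hx
      obtain ⟨y', hy', ey⟩ := hy
      exact ⟨_, C.add_mem hx' hy', by rw [mul_add, ex, ey, add_mul]⟩
    | mul x y _ _ hx hy =>
      obtain ⟨x', hx', ex⟩ := hx
      obtain ⟨y', hy', ey⟩ := hy
      exact ⟨_, C.mul_mem hx' hy', by rw [← mul_assoc, ex, mul_assoc, ey, mul_assoc]⟩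
  have hconjn : ∀ (i : ℕ), ∀ c ∈ C, ∃ c' ∈ C, (U : B) ^ i * c = c' * (U : B) ^ i := by
    intro i
    induction i with
    | zero => intro c hc; exact ⟨c, hc, by simp⟩
    | succ i ih =>
      intro c hc
      obtain ⟨c₁, h₁, e₁⟩ := hconj c hc
      obtain ⟨c₂, h₂, e₂⟩ := ih c₁ h₁
      exact ⟨c₂, h₂, by rw [pow_succ, mul_assoc, e₁, ← mul_assoc, e₂, mul_assoc]⟩
  have hrep : ∀ b : B, ∃ c : ℕ → B, (∀ i, c i ∈ C) ∧ b = ∑ i ∈ Finset.range p, c i * (U : B) ^ i := by
    intro b
    have hmono : ∀ (m : ℕ), ∀ x ∈ C, ∃ c : ℕ → B, (∀ i, c i ∈ C) ∧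
        x * (U : B) ^ m = ∑ i ∈ Finset.range p, c i * (U : B) ^ i := by
      intro m x hx
      refine ⟨fun i => if i = m % p then x * ((U : B) ^ p) ^ (m / p) else 0, fun i => ?_, ?_⟩
      · show (if i = m % p then _ else _) ∈ C
        split_ifs
        · exact C.mul_mem hx (C.pow_mem hUC _)
        · exact C.zero_mem
      · simp only [ite_mul, zero_mul, Finset.sum_ite_eq', Finset.mem_range,
          Nat.mod_lt _ hp.pos, if_true]
        rw [mul_assoc, ← pow_mul, ← pow_add, Nat.div_add_mod]
    have hsum : ∀ (ι : Type) (s : Finset ι) (f : ι → B), (∀ j ∈ s, ∃ c : ℕ → B, (∀ i, c i ∈ C) ∧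
        f j = ∑ i ∈ Finset.range p, c i * (U : B) ^ i) →
        ∃ c : ℕ → B, (∀ i, c i ∈ C) ∧ ∑ j ∈ s, f j = ∑ i ∈ Finset.range p, c i * (U : B) ^ i := by
      intro ι s f hf
      choose! c hc e using hf
      refine ⟨fun i => ∑ j ∈ s, c j i, fun i => C.sum_mem fun j hj => hc j hj i, ?_⟩
      simp only [Finset.sum_mul]
      rw [Finset.sum_comm]
      exact Finset.sum_congr rfl e
    have hb : b ∈ Algebra.adjoin F (Set.range κ ∪ {(U : B)}) := by rw [hgen]; exact Algebra.mem_top
    induction hb using Algebra.adjoin_induction with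
    | mem x hx =>
      rcases hx with ⟨k, rfl⟩ | rfl
      · simpa using hmono 0 _ (hκC k)
      · simpa using hmono 1 1 C.one_mem
    | algebraMap r => simpa using hmono 0 _ (C.algebraMap_mem r)
    | add x y _ _ hx hy =>
      obtain ⟨c, hc, rfl⟩ := hx
      obtain ⟨d, hd, rfl⟩ := hy
      exact ⟨fun i => c i + d i, fun i => C.add_mem (hc i) (hd i), by
        simp [add_mul, Finset.sum_add_distrib]⟩
    | mul x y _ _ hx hy =>
      obtain ⟨c, hc, rfl⟩ := hx
      obtain ⟨d, hd, rfl⟩ := hy
      rw [Finset.sum_mul]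
      refine hsum ℕ _ _ fun i _ => ?_
      rw [Finset.mul_sum]
      refine hsum ℕ _ _ fun j _ => ?_
      obtain ⟨d', hd', e⟩ := hconjn i (d j) (hd j)
      obtain ⟨c'', hc'', e'⟩ := hmono (i + j) _ (C.mul_mem (hc i) hd')
      exact ⟨c'', hc'', by rw [← e', mul_assoc, ← mul_assoc ((U : B) ^ i), e, pow_add]; simp only [mul_assoc]⟩
  have hind : ∀ c : ℕ → B, (∀ i, c i ∈ C) → ∑ i ∈ Finset.range p, c i * (U : B) ^ i = 0 →
      ∀ i < p, c i = 0 := fun c hc h i hi =>
    right_indep κ σ (U : B) hU U.isUnit hinj (Finset.range p) (fun j hj => Finset.mem_range.1 hj) c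
      (fun i k => hCκ _ (hc i) k) h i (Finset.mem_range.2 hi)
  have hcenC : ∀ z : B, (∀ y, z * y = y * z) → z ∈ C := by
    intro z hz
    obtain ⟨c, hc, e⟩ := hrep z
    have h0 : ∀ i < p, i ≠ 0 → c i = 0 := by
      intro i hi hi0
      have hne : σ ^ i ≠ σ ^ 0 := fun e => hi0 (hinj hi hp.pos e)
      obtain ⟨k, hk⟩ := DFunLike.ne_iff.1 hne
      have h : ∑ i ∈ Finset.range p, (c i * κ ((σ ^ i) k - k)) * (U : B) ^ i = 0 := by
        rw [← sub_eq_zero.2 (hz (κ k)), e, Finset.sum_mul, Finset.mul_sum,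
          ← Finset.sum_sub_distrib]
        refine Finset.sum_congr rfl fun i _ => ?_
        rw [mul_assoc (c i) ((U : B) ^ i), hpow, ← mul_assoc, ← mul_assoc, map_sub, mul_sub,
          sub_mul, ← (hCκ _ (hc i) _).eq]
      have := hind _ (fun i => C.mul_mem (hc i) (hκC _)) h i hi
      refine ((isUnit_iff_ne_zero.2 (sub_ne_zero.2 ?_)).map κ).mul_left_eq_zero.1 this
      simpa using hk
    rw [e, Finset.sum_eq_single 0]
    · simpa using hc 0
    · intro i hi hi0; rw [h0 i (Finset.mem_range.1 hi) hi0, zero_mul]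
    · intro h; exact absurd (Finset.mem_range.2 hp.pos) h
  haveI : IsSimpleRing B := by
    refine IsSimpleRing.of_eq_bot_or_eq_top fun I => ?_
    by_contra hI
    push Not at hI
    obtain ⟨x₀, hx₀, hx₀0⟩ : ∃ x ∈ I, x ≠ 0 := by
      by_contra h
      push Not at h
      exact hI.1 (le_bot_iff.1 fun x hx => by simp [h x hx])
    have hne : ∃ m, ∃ c : ℕ → B, (∀ i, c i ∈ C) ∧ (∑ i ∈ Finset.range p, c i * (U : B) ^ i) ∈ I
        ∧ (∑ i ∈ Finset.range p, c i * (U : B) ^ i) ≠ 0
        ∧ ((Finset.range p).filter fun i => c i ≠ 0).card = m := by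
      obtain ⟨c, hc, e⟩ := hrep x₀
      exact ⟨_, c, hc, e ▸ hx₀, e ▸ hx₀0, rfl⟩
    obtain ⟨c, hc, hxI, hx0, hcm⟩ := Nat.find_spec hne
    obtain ⟨j, hj, hj0⟩ : ∃ j < p, c j ≠ 0 := by
      by_contra h
      push Not at h
      exact hx0 (Finset.sum_eq_zero fun i hi => by rw [h i (Finset.mem_range.1 hi), zero_mul])
    have hother : ∀ i < p, i ≠ j → c i = 0 := by
      intro i hi hij
      have hne' : σ ^ i ≠ σ ^ j := fun e => hij (hinj hi hj e)
      obtain ⟨k, hk⟩ := DFunLike.ne_iff.1 hne'
      let c' : ℕ → B := fun i => c i * κ ((σ ^ i) k - (σ ^ j) k)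
      have hc' : ∀ i, c' i ∈ C := fun i => C.mul_mem (hc i) (hκC _)
      have hz : ∑ i ∈ Finset.range p, c' i * (U : B) ^ i = 0 := by
        by_contra hz
        refine Nat.find_min hne ?_ ⟨c', hc', ?_, hz, rfl⟩
        · rw [← hcm]
          refine Finset.card_lt_card ((Finset.ssubset_iff_of_subset ?_).2 ⟨j, ?_, ?_⟩)
          · intro l hl
            simp only [Finset.mem_filter, c'] at hl ⊢
            exact ⟨hl.1, fun e => hl.2 (by rw [e, zero_mul])⟩
          · simp [hj, hj0]
          · simp [c']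
        · have e : ∑ i ∈ Finset.range p, c' i * (U : B) ^ i
              = (∑ i ∈ Finset.range p, c i * (U : B) ^ i) * κ k
              - κ ((σ ^ j) k) * ∑ i ∈ Finset.range p, c i * (U : B) ^ i := by
            rw [Finset.sum_mul, Finset.mul_sum, ← Finset.sum_sub_distrib]
            refine Finset.sum_congr rfl fun i _ => ?_
            simp only [c']
            rw [mul_assoc (c i) ((U : B) ^ i), hpow, ← mul_assoc, ← mul_assoc, map_sub, mul_sub,
              sub_mul, ← (hCκ _ (hc i) _).eq]
          rw [e]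
          exact I.sub_mem (I.mul_mem_right _ _ hxI) (I.mul_mem_left _ _ hxI)
      exact ((isUnit_iff_ne_zero.2 (sub_ne_zero.2 hk)).map κ).mul_left_eq_zero.1 (hind c' hc' hz i hi)
    have hcI : c j ∈ I := by
      have e : ∑ i ∈ Finset.range p, c i * (U : B) ^ i = c j * (U : B) ^ j :=
        Finset.sum_eq_single j (fun i hi h => by rw [hother i (Finset.mem_range.1 hi) h, zero_mul])
          fun h => absurd (Finset.mem_range.2 hj) h
      have := I.mul_mem_right _ (↑(U ^ j)⁻¹ : B) (e ▸ hxI)
      rwa [← Units.val_pow_eq_pow_val, mul_assoc, Units.mul_inv, mul_one] at this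
    let cc : ℕ → B := fun i => (↑(U ^ i) : B) * c j * (↑(U ^ i)⁻¹ : B)
    have hccC : ∀ i, cc i ∈ C := fun i => by
      obtain ⟨c', hc', e⟩ := hconjn i (c j) (hc j)
      simp only [cc, Units.val_pow_eq_pow_val, e]
      rw [mul_assoc, ← Units.val_pow_eq_pow_val, Units.mul_inv, mul_one]
      exact hc'
    obtain ⟨k, hk⟩ : ∃ k, ∑ i ∈ Finset.range p, κ ((σ ^ i) k) * cc i ≠ 0 := by
      by_contra h
      push Not at h
      have := left_indep κ σ hinj (Finset.range p) (fun i hi => Finset.mem_range.1 hi) cc h 0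
        (Finset.mem_range.2 hp.pos)
      simp [cc] at this
      exact hj0 this
    set f : ℕ → B := fun i => (↑(U ^ i) : B) * (κ k * c j) * (↑(U ^ i)⁻¹ : B) with hf
    set t := ∑ i ∈ Finset.range p, f i
    have hfe : ∀ i, f i = κ ((σ ^ i) k) * cc i := fun i => by
      simp only [hf, cc, ← mul_assoc, Units.val_pow_eq_pow_val, hpow]
    have ht0 : t ≠ 0 := by simpa [t, hfe] using hk
    have htI : t ∈ I := sum_mem fun i _ => I.mul_mem_right _ _ (I.mul_mem_left _ _
      (I.mul_mem_left _ _ hcI))
    have htC : t ∈ C := C.sum_mem fun i _ => hfe i ▸ C.mul_mem (hκC _) (hccC i)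
    have hfp : f p = f 0 := by
      have h : Commute ((↑(U ^ p) : B)) (κ k * c j) := by
        rw [Units.val_pow_eq_pow_val]
        exact hC _ hUC _ (C.mul_mem (hκC k) (hc j))
      show (↑(U ^ p) : B) * (κ k * c j) * ↑(U ^ p)⁻¹ = (↑(U ^ 0) : B) * (κ k * c j) * ↑(U ^ 0)⁻¹
      rw [h.eq, Units.mul_inv_cancel_right]
      simp
    have htU : (U : B) * t * (↑U⁻¹ : B) = t := by
      have : (U : B) * t * (↑U⁻¹ : B) = ∑ i ∈ Finset.range p, f (i + 1) := by
        simp only [t, Finset.mul_sum, Finset.sum_mul]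
        refine Finset.sum_congr rfl fun i _ => ?_
        simp only [hf, pow_succ' U, mul_inv_rev, Units.val_mul, mul_assoc]
      rw [this]
      have h1 := Finset.sum_range_succ f p
      have h2 := Finset.sum_range_succ' f p
      rw [h1, hfp] at h2
      exact (add_right_cancel h2).symm
    have htU' : (U : B) * t = t * U := by
      conv_rhs => rw [← htU, mul_assoc, Units.inv_mul, mul_one]
    have htc : ∀ y, t * y = y * t := by
      intro y
      have hy : y ∈ Algebra.adjoin F (Set.range κ ∪ {(U : B)}) := by rw [hgen]; exact Algebra.mem_top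
      show Commute t y
      induction hy using Algebra.adjoin_induction with
      | mem x hx =>
        rcases hx with ⟨k', rfl⟩ | rfl
        · exact hCκ t htC k'
        · exact htU'.symm
      | algebraMap r => exact Algebra.commute_algebraMap_right r _
      | add x y _ _ hx hy => exact hx.add_right hy
      | mul x y _ _ hx hy => exact hx.mul_right hy
    have hsur : Function.Surjective (LinearMap.mulLeft F t) :=
      LinearMap.surjective_of_injective fun a b h => sub_eq_zero.1
        (hcen t htc ht0 _ (by rw [mul_sub]; exact sub_eq_zero.2 h))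
    obtain ⟨t', ht'⟩ := hsur 1
    refine hI.2 (eq_top_iff.2 fun z _ => ?_)
    have h := I.mul_mem_right _ (t' * z) htI
    rw [← mul_assoc, show t * t' = 1 from ht', one_mul] at h
    exact h
  haveI : IsArtinianRing B := isArtinian_of_tower F inferInstance
  obtain ⟨q, hq, Δ, iΔ, iA, hΔfin, ⟨e⟩⟩ := IsSimpleRing.exists_algEquiv_matrix_divisionRing_finite F B
  have hcomm := hF Δ hΔfin
  letI : Field Δ := { iΔ with mul_comm := hcomm }
  refine ⟨q, Δ, inferInstance, iA, ?_, ⟨e.symm.toAlgHom⟩⟩
  let C' : Submodule Δ (Matrix (Fin q) (Fin q) Δ) :=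
    { carrier := {M | e.symm M ∈ C}
      add_mem' := fun {a b} ha hb => by
        show e.symm (a + b) ∈ C
        rw [map_add]; exact C.add_mem ha hb
      zero_mem' := by
        show e.symm 0 ∈ C
        rw [map_zero]; exact C.zero_mem
      smul_mem' := fun d M hM => by
        show e.symm (d • M) ∈ C
        have hd : d • M = Matrix.scalar (Fin q) d * M := by
          simp [Matrix.scalar_apply, Matrix.smul_eq_diagonal_mul]
        rw [hd, map_mul]
        refine C.mul_mem (hcenC _ fun y => e.injective ?_) hM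
        rw [map_mul, map_mul, AlgEquiv.apply_symm_apply]
        exact (Matrix.scalar_commute d (fun r => Commute.all d r) _).eq }
  let T : (Fin p → C') →ₗ[Δ] Matrix (Fin q) (Fin q) Δ :=
    { toFun := fun c => ∑ i : Fin p, (c i : Matrix (Fin q) (Fin q) Δ) * e ((U : B) ^ (i : ℕ))
      map_add' := fun c d => by simp [add_mul, Finset.sum_add_distrib]
      map_smul' := fun r c => by simp [Finset.smul_sum] }
  have hTinj : Function.Injective T := by
    rw [injective_iff_map_eq_zero]
    intro c hc
    have h := congrArg e.symm hc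
    simp only [T, LinearMap.coe_mk, AddHom.coe_mk, map_sum, map_mul, AlgEquiv.symm_apply_apply,
      map_zero] at h
    let c' : ℕ → B := fun i => if hi : i < p then e.symm (c ⟨i, hi⟩ : Matrix _ _ Δ) else 0
    have h' : ∑ i ∈ Finset.range p, c' i * (U : B) ^ i = 0 := by
      rw [← h, Finset.sum_range fun i => c' i * (U : B) ^ i]
      simp [c']
    funext i
    have := hind c' (fun i => by
      simp only [c']; split_ifs with hi
      · exact (c ⟨i, hi⟩).2
      · exact C.zero_mem) h' i i.2
    simp only [c', i.2, dif_pos] at this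
    exact Subtype.ext (e.symm.injective (this.trans (map_zero _).symm))
  have hTsurj : Function.Surjective T := by
    intro M
    obtain ⟨c, hc, h⟩ := hrep (e.symm M)
    refine ⟨fun i => ⟨e (c i), by show e.symm (e (c i)) ∈ C; rw [e.symm_apply_apply]; exact hc i⟩, ?_⟩
    have h' := congrArg e h
    rw [e.apply_symm_apply, map_sum] at h'
    rw [h', Finset.sum_range fun i => e (c i * (U : B) ^ i)]
    simp [T]
  have hdim := (LinearEquiv.ofBijective T ⟨hTinj, hTsurj⟩).finrank_eq
  rw [Module.finrank_pi_fintype, Module.finrank_matrix, Module.finrank_self, mul_one,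
    Finset.sum_const, Finset.card_univ, Fintype.card_fin, smul_eq_mul] at hdim
  refine (hp.dvd_mul.1 (Dvd.intro _ hdim)).elim (fun h => ?_) fun h => ?_ <;> simpa using h

end Vale.Agent.P199
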