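import Vale.Agent.P199.Reps

/-!
Algebraic division rings whose centre has no noncommutative finite-dimensional division algebras.
-/

namespace Vale.Agent.P199

open Polynomial TensorProduct

variable {F : Type} [Field F] {D : Type} [DivisionRing D] [Algebra F D]

/-- Right multiplication by an element on every coordinate. -/
def rightMulEnd (m : ℕ) (a : D) : Module.End D (Fin m → D) where
  toFun v i := v i * a
  map_add' v w := by funext i; simp [add_mul]
  map_smul' r v := by funext i; simp [mul_assoc]

theorem aeval_rightMulEnd (m : ℕ) (a : D) (f : F[X]) (v : Fin m → D) (i : Fin m) :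
    aeval (rightMulEnd (D := D) m a) f v i = v i * aeval a f := by
  induction f using Polynomial.induction_on' with
  | add f g hf hg => simp [hf, hg, mul_add]
  | monomial k c =>
    have hk : ∀ v, ((rightMulEnd (D := D) m a) ^ k) v i = v i * a ^ k := by
      induction k with
      | zero => intro v; simp
      | succ k ih =>
        intro v
        rw [pow_succ, Module.End.mul_apply, ih, pow_succ', ← mul_assoc]
        rfl
    simp only [aeval_monomial, Module.End.mul_apply, Module.algebraMap_end_apply, Pi.smul_apply, hk,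
      Algebra.smul_def]
    rw [← mul_assoc, ← mul_assoc, Algebra.commutes]

/-- A matrix over the ground field acting on coordinates. -/
def matrixEnd (m : ℕ) : Matrix (Fin m) (Fin m) F →ₐ[F] Module.End D (Fin m → D) where
  toFun c :=
    { toFun := fun v i => ∑ k, c i k • v k
      map_add' := fun v w => by funext i; simp [smul_add, Finset.sum_add_distrib]
      map_smul' := fun r v => by funext i; simp [Finset.mul_sum] }
  map_one' := by
    refine LinearMap.ext fun v => funext fun i => ?_
    simp [Matrix.one_apply, ite_smul]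
  map_mul' c d := by
    refine LinearMap.ext fun v => funext fun i => ?_
    simp only [LinearMap.coe_mk, AddHom.coe_mk, Module.End.mul_apply, Matrix.mul_apply,
      Finset.sum_smul, Finset.smul_sum, mul_smul]
    exact Finset.sum_comm
  map_zero' := by
    refine LinearMap.ext fun v => funext fun i => ?_
    simp
  map_add' c d := by
    refine LinearMap.ext fun v => funext fun i => ?_
    simp [add_smul, Finset.sum_add_distrib]
  commutes' r := by
    refine LinearMap.ext fun v => funext fun i => ?_
    simp [Matrix.algebraMap_matrix_apply, ite_smul]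

/-- Some cyclic subfield of prime degree acts, so the prime divides the dimension. -/
theorem dvd_finrank_generated [Algebra.IsCentral F D] (hF : FinDivComm F)
    (hend : ∀ (V : Type) [AddCommGroup V] [Module D V] [Module F V] [IsScalarTower F D V]
      [Module.Finite D V] (x : Module.End D V), IsAlgebraic F x)
    {L : Type} [Field L] [Algebra F L] [FiniteDimensional F L] [IsGalois F L]
    {f : F[X]} (hirr : Irreducible f) (hmon : f.Monic) (hspl : (f.map (algebraMap F L)).Splits)
    {p : ℕ} [hp' : Fact p.Prime] (hpn : p ∣ f.natDegree) (P : Sylow p (L ≃ₐ[F] L))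
    (K₁ : Type) [Field K₁] [Algebra F K₁]
    (M : IntermediateField F L) (hM : M = IntermediateField.fixedField (P : Subgroup (L ≃ₐ[F] L)))
    (iM : M →ₐ[F] K₁) (θ : K₁)
    (hθ : aeval θ f = 0) (hgen' : Algebra.adjoin F (Set.range iM ∪ {θ}) = ⊤)
    (W : Type) [AddCommGroup W] [Module D W] [Module F W] [IsScalarTower F D W] [Module.Finite D W]
    (ψ₁ : K₁ →ₐ[F] Module.End D W) : p ∣ Module.finrank D W := by
  classical
  have hp := hp'.out
  have hmP : Module.finrank F M = (P : Subgroup (L ≃ₐ[F] L)).index := by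
    subst hM
    have h1 := Module.finrank_mul_finrank F (IntermediateField.fixedField (P : Subgroup (L ≃ₐ[F] L))) L
    rw [IntermediateField.finrank_fixedField_eq_card, ← IsGalois.card_aut_eq_finrank F L,
      ← (P : Subgroup (L ≃ₐ[F] L)).index_mul_card] at h1
    exact Nat.eq_of_mul_eq_mul_right Nat.card_pos h1
  have hpm : ¬ p ∣ Module.finrank F M := hmP ▸ P.not_dvd_index
  letI : Algebra M K₁ := iM.toRingHom.toAlgebra
  haveI : IsScalarTower F M K₁ := IsScalarTower.of_algHom iM
  have hθint : IsIntegral M θ :=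
    IsIntegral.tower_top (R := F) ⟨f, hmon, by rwa [← aeval_def]⟩
  have hgen : IntermediateField.adjoin M {θ} = ⊤ := by
    refine eq_top_iff.2 fun z hz' => ?_
    clear hz'
    have hz : z ∈ Algebra.adjoin F (Set.range iM ∪ {θ}) := by rw [hgen']; exact Algebra.mem_top
    induction hz using Algebra.adjoin_induction with
    | mem x hx =>
      rcases hx with ⟨y, rfl⟩ | rfl
      · exact IntermediateField.algebraMap_mem _ y
      · exact IntermediateField.mem_adjoin_simple_self _ _
    | algebraMap r =>
      rw [IsScalarTower.algebraMap_apply F M K₁]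
      exact IntermediateField.algebraMap_mem _ _
    | add x y _ _ hx hy => exact add_mem hx hy
    | mul x y _ _ hx hy => exact mul_mem hx hy
  obtain ⟨jM⟩ : Nonempty (K₁ →ₐ[M] L) := by
    refine IntermediateField.nonempty_algHom_of_adjoin_splits (S := {θ}) (fun s hs => ?_) hgen
    rw [Set.mem_singleton_iff] at hs
    rw [hs]
    refine ⟨hθint, ?_⟩
    have hdvd : minpoly M θ ∣ f.map (algebraMap F M) :=
      minpoly.dvd M θ (by rw [Polynomial.aeval_map_algebraMap]; exact hθ)
    refine Polynomial.Splits.of_dvd hspl (map_ne_zero hmon.ne_zero) ?_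
    rw [IsScalarTower.algebraMap_eq F M L, ← Polynomial.map_map]
    exact Polynomial.map_dvd _ hdvd
  let jF : K₁ →ₐ[F] L := jM.restrictScalars F
  set K₁' := jF.fieldRange with hK₁'
  have hMK : M ≤ K₁' := fun x hx =>
    ⟨algebraMap M K₁ ⟨x, hx⟩, jM.commutes ⟨x, hx⟩⟩
  have hr : jF θ ∈ K₁' := ⟨θ, rfl⟩
  have hminr : minpoly F (jF θ) = f :=
    (minpoly.eq_of_irreducible_of_monic hirr
      (by rw [aeval_algHom_apply, hθ, map_zero]) hmon).symm
  have hnK : f.natDegree ∣ Module.finrank F K₁' := by
    rw [← hminr, ← IntermediateField.adjoin.finrank (Algebra.IsIntegral.isIntegral _)]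
    exact IntermediateField.finrank_dvd_of_le_right
      ((IntermediateField.adjoin_simple_le_iff).2 hr)
  have hne' : K₁' ≠ M := fun e => hpm (by rw [← e]; exact hpn.trans hnK)
  set H₁ := K₁'.fixingSubgroup with hH₁
  have hH₁P : H₁ ≤ (P : Subgroup (L ≃ₐ[F] L)) :=
    (IntermediateField.fixingSubgroup_antitone hMK).trans_eq
      (by rw [hM, IntermediateField.fixingSubgroup_fixedField])
  set H₁' := H₁.subgroupOf (P : Subgroup (L ≃ₐ[F] L)) with hH₁'
  have hH₁top : H₁' ≠ ⊤ := fun h => hne' (by
    have hle : (P : Subgroup (L ≃ₐ[F] L)) ≤ H₁ := Subgroup.subgroupOf_eq_top.1 h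
    rw [← IsGalois.fixedField_fixingSubgroup K₁', hM, ← hH₁, le_antisymm hH₁P hle])
  obtain ⟨k, hk⟩ := IsPGroup.iff_card.1 P.isPGroup'
  obtain ⟨l, hl⟩ := IsPGroup.iff_card.1 (P.isPGroup'.to_subgroup H₁')
  have hlk : l < k := by
    refine (Nat.pow_lt_pow_iff_right hp.one_lt).1 ?_
    rw [← hk, ← hl]
    exact lt_of_le_of_ne (Subgroup.card_le_card_group H₁')
      fun e => hH₁top (Subgroup.eq_top_of_card_eq _ e)
  obtain ⟨H', hH'card, hH'le⟩ := Sylow.exists_subgroup_card_pow_prime_le p
    (n := l) (m := k - 1) (hk ▸ pow_dvd_pow p (by omega)) H₁' hl (by omega : l ≤ k - 1)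
  have hindex : H'.index = p := by
    have h := H'.index_mul_card
    rw [hH'card, hk] at h
    exact Nat.eq_of_mul_eq_mul_right (pow_pos hp.pos _)
      (h.trans (by rw [← pow_succ']; congr 1; omega))
  haveI : H'.Normal := Subgroup.normal_of_index_eq_minFac_card (by
    rw [hindex, hk, Nat.pow_minFac (by omega), hp.minFac_eq])
  obtain ⟨σP, hσP⟩ : ∃ σP : (P : Subgroup (L ≃ₐ[F] L)), σP ∉ H' := by
    by_contra h
    push Not at h
    rw [Subgroup.index_eq_one.2 (Subgroup.eq_top_iff' _ |>.2 h)] at hindex
    exact hp.one_lt.ne hindex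
  set H₂ := H'.map (P : Subgroup (L ≃ₐ[F] L)).subtype with hH₂
  set K₂ := IntermediateField.fixedField H₂ with hK₂
  have hK₂le : K₂ ≤ K₁' := by
    rw [← IsGalois.fixedField_fixingSubgroup K₁']
    refine IntermediateField.fixedField_antitone fun g hg => ?_
    exact Subgroup.mem_map.2 ⟨⟨g, hH₁P hg⟩, hH'le hg, rfl⟩
  have hstable : ∀ x ∈ K₂, (σP : L ≃ₐ[F] L) x ∈ K₂ := by
    intro x hx
    rw [hK₂, IntermediateField.mem_fixedField_iff] at hx ⊢
    intro g hg
    obtain ⟨g', hg', rfl⟩ := Subgroup.mem_map.1 hg
    have hmem : σP⁻¹ * g' * σP ∈ H' := by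
      simpa using (inferInstance : H'.Normal).conj_mem g' hg' σP⁻¹
    have h := hx _ (Subgroup.mem_map.2 ⟨_, hmem, rfl⟩)
    have h' := congrArg (σP : L ≃ₐ[F] L) h
    simp only [Subgroup.coe_subtype, Subgroup.coe_mul, InvMemClass.coe_inv,
      AlgEquiv.mul_apply] at h' ⊢
    rwa [← AlgEquiv.mul_apply (σP : L ≃ₐ[F] L), mul_inv_cancel, AlgEquiv.one_apply] at h'
  let s₀ : K₂ →ₐ[F] K₂ :=
    { toFun := fun x => ⟨(σP : L ≃ₐ[F] L) x, hstable x x.2⟩
      map_one' := Subtype.ext (by simp)
      map_mul' := fun x y => Subtype.ext (by simp)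
      map_zero' := Subtype.ext (by simp)
      map_add' := fun x y => Subtype.ext (by simp)
      commutes' := fun r => Subtype.ext (by simp) }
  let σ : K₂ ≃ₐ[F] K₂ := AlgEquiv.ofBijective s₀ (Algebra.IsAlgebraic.algHom_bijective s₀)
  have hσval : ∀ (i : ℕ) (x : K₂), ((σ ^ i) x : L) = ((σP : L ≃ₐ[F] L) ^ i) x := by
    intro i
    induction i with
    | zero => intro x; simp
    | succ i ih =>
      intro x
      rw [pow_succ', pow_succ', AlgEquiv.mul_apply, AlgEquiv.mul_apply, ← ih x]
      rfl
  have hσp : σ ^ p = 1 := AlgEquiv.ext fun x => Subtype.ext (by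
    rw [hσval]
    have hx : (x : L) ∈ IntermediateField.fixedField H₂ := x.2
    rw [IntermediateField.mem_fixedField_iff] at hx
    refine hx _ (Subgroup.mem_map.2 ⟨σP ^ p, ?_, by simp⟩)
    have := Subgroup.pow_index_mem H' σP
    rwa [hindex] at this)
  have hσ : σ ≠ 1 := fun h => hσP (by
    have hmem : (σP : L ≃ₐ[F] L) ∈ K₂.fixingSubgroup := by
      rw [IntermediateField.mem_fixingSubgroup_iff]
      intro x hx
      have := hσval 1 ⟨x, hx⟩
      rw [pow_one, pow_one, h] at this
      exact this.symm
    rw [hK₂, IntermediateField.fixingSubgroup_fixedField] at hmem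
    obtain ⟨g, hg, e⟩ := Subgroup.mem_map.1 hmem
    exact Subtype.ext e ▸ hg)
  exact dvd_finrank_crossed hF σ hp hσp hσ W (fun x => hend W x)
    (ψ₁.comp ((AlgEquiv.ofInjectiveField jF).symm.toAlgHom.comp (IntermediateField.inclusion hK₂le)))

/-- If every finite-dimensional division algebra over the centre is commutative, and endomorphisms
of finite-dimensional spaces are algebraic, then the division ring is commutative. -/
theorem commutative_of_central [Algebra.IsCentral F D] [Algebra.IsAlgebraic F D] (hF : FinDivComm F)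
    (hend : ∀ (V : Type) [AddCommGroup V] [Module D V] [Module F V] [IsScalarTower F D V]
      [Module.Finite D V] (x : Module.End D V), IsAlgebraic F x) :
    ∀ x y : D, x * y = y * x := by
  classical
  by_contra hne
  have hbot : (⊥ : Subalgebra F D) ≠ ⊤ := fun h => hne fun x y => by
    obtain ⟨c, rfl⟩ := Algebra.mem_bot.1 (show x ∈ (⊥ : Subalgebra F D) from h ▸ Algebra.mem_top)
    exact Algebra.commutes c y
  obtain ⟨a, ha, hsep⟩ := JacobsonNoether.exists_separable_and_not_isCentral' hbot
  have haint : IsIntegral F a := (Algebra.IsAlgebraic.isAlgebraic a).isIntegral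
  set f := minpoly F a with hf
  haveI hfirr : Fact (Irreducible f) := ⟨minpoly.irreducible haint⟩
  have hn : 1 < f.natDegree := by
    rcases Nat.lt_or_ge 1 f.natDegree with h | h
    · exact h
    · have h0 : 0 < f.natDegree := minpoly.natDegree_pos haint
      have h1 : f.natDegree = 1 := by omega
      exact absurd (Algebra.mem_bot.2 (minpoly.natDegree_eq_one_iff.1 h1)) ha
  obtain ⟨p, hp, hpn⟩ := Nat.exists_prime_and_dvd (n := f.natDegree) (by omega)
  haveI := Fact.mk hp
  let L := f.SplittingField
  haveI : IsGalois F L := IsGalois.of_separable_splitting_field (p := f) hsep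
  obtain ⟨P⟩ : Nonempty (Sylow p (L ≃ₐ[F] L)) := inferInstance
  set M := IntermediateField.fixedField (P : Subgroup (L ≃ₐ[F] L)) with hM
  set m := Module.finrank F M with hm
  have hmP : m = (P : Subgroup (L ≃ₐ[F] L)).index := by
    have h1 := Module.finrank_mul_finrank F M L
    rw [IntermediateField.finrank_fixedField_eq_card, ← IsGalois.card_aut_eq_finrank F L,
      ← (P : Subgroup (L ≃ₐ[F] L)).index_mul_card] at h1
    exact Nat.eq_of_mul_eq_mul_right Nat.card_pos h1
  have hpm : ¬ p ∣ m := hmP ▸ P.not_dvd_index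
  let bM := Module.finBasis F M
  let lam : M →ₐ[F] Module.End D (Fin m → D) := (matrixEnd m).comp (Algebra.leftMulMatrix bM)
  let T := rightMulEnd (D := D) m a
  have hTf : aeval T f = 0 := LinearMap.ext fun v => funext fun i => by
    rw [aeval_rightMulEnd, hf, minpoly.aeval, mul_zero]; rfl
  let rho : AdjoinRoot f →ₐ[F] Module.End D (Fin m → D) := Ideal.Quotient.liftₐ _ (aeval T)
    fun g hg => by
      obtain ⟨h, rfl⟩ := Ideal.mem_span_singleton.1 hg
      rw [map_mul, hTf, zero_mul]
  have hcomm : ∀ (x : M) (y : AdjoinRoot f), Commute (lam x) (rho y) := by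
    intro x y
    induction y using AdjoinRoot.induction_on with
    | ih g =>
      refine LinearMap.ext fun v => funext fun i => ?_
      show ∑ k, Algebra.leftMulMatrix bM x i k • aeval T g v k = aeval T g (lam x v) i
      simp only [T, aeval_rightMulEnd]
      show _ = (∑ k, Algebra.leftMulMatrix bM x i k • v k) * _
      simp [Finset.sum_mul, smul_mul_assoc]
  let psi := Algebra.TensorProduct.lift lam rho hcomm
  have key : p ∣ Module.finrank D (Fin m → D) := by
    refine dvd_finrank_of_prime_reps (D := D) p (fun W _ _ _ _ _ ψ hW hprime => ?_) _ psi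
    haveI : Nontrivial W := Module.nontrivial_of_finrank_pos hW
    letI iC : CommRing (M ⊗[F] AdjoinRoot f) := Algebra.TensorProduct.instCommRing
    let q : Ideal (M ⊗[F] AdjoinRoot f) := RingHom.ker ψ
    haveI hq : q.IsPrime := by
      refine ⟨(Ideal.ne_top_iff_one _).2 fun h => ?_, fun {x y} h => hprime x y
        (fun c => congrArg ψ (mul_comm x c)) h⟩
      rw [RingHom.mem_ker, map_one] at h
      exact one_ne_zero h
    haveI : Module.Finite F (AdjoinRoot f) :=
      (AdjoinRoot.powerBasis (minpoly.ne_zero haint)).finite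
    haveI : IsArtinianRing (M ⊗[F] AdjoinRoot f) := isArtinian_of_tower F inferInstance
    haveI : q.IsMaximal := IsArtinianRing.isMaximal_of_isPrime (R := M ⊗[F] AdjoinRoot f) q
    let K₁ := (M ⊗[F] AdjoinRoot f) ⧸ q
    letI : Field K₁ := Ideal.Quotient.field q
    let mk : M ⊗[F] AdjoinRoot f →ₐ[F] K₁ := Ideal.Quotient.mkₐ F q
    let ψ₁ : K₁ →ₐ[F] Module.End D W := Ideal.Quotient.liftₐ q ψ fun x hx => hx
    let iM : M →ₐ[F] K₁ := mk.comp Algebra.TensorProduct.includeLeft
    let iR : AdjoinRoot f →ₐ[F] K₁ := mk.comp Algebra.TensorProduct.includeRight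
    let θ : K₁ := iR (AdjoinRoot.root f)
    refine dvd_finrank_generated hF hend (L := L) (minpoly.irreducible haint) (minpoly.monic haint)
      (Polynomial.SplittingField.splits f) hpn P K₁ M hM iM θ ?_ ?_ W ψ₁
    · rw [aeval_algHom_apply, AdjoinRoot.aeval_eq, AdjoinRoot.mk_self, map_zero]
    · refine eq_top_iff.2 fun z hz' => ?_
      clear hz'
      obtain ⟨z, rfl⟩ := Ideal.Quotient.mkₐ_surjective F q z
      induction z using TensorProduct.induction_on with
      | zero => rw [map_zero]; exact zero_mem _
      | tmul x y =>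
        have e : mk (x ⊗ₜ[F] y) = iM x * iR y := by
          show _ = mk (x ⊗ₜ[F] 1) * mk (1 ⊗ₜ[F] y)
          rw [← map_mul, Algebra.TensorProduct.tmul_mul_tmul, mul_one, one_mul]
        show mk (x ⊗ₜ[F] y) ∈ _
        rw [e]
        refine mul_mem (Algebra.subset_adjoin (Or.inl ⟨x, rfl⟩)) ?_
        induction y using AdjoinRoot.induction_on with
        | ih g =>
          rw [← AdjoinRoot.aeval_eq g, ← aeval_algHom_apply]
          exact Algebra.adjoin_mono Set.subset_union_right
            (Polynomial.aeval_mem_adjoin_singleton F θ)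
      | add x y hx hy => rw [map_add]; exact add_mem hx hy
  rw [Module.finrank_fin_fun] at key
  exact hpm key

end Vale.Agent.P199
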