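import Vale.Agent.P199.Reps

/-!
Algebraic division rings over centres in which every finite separable extension contains a cyclic
extension of prime degree: no cardinality assumption is needed.
-/

namespace Vale.Agent.P199

open Polynomial

/-- An algebraic division ring whose centre has no noncommutative finite-dimensional division
algebras, and whose nontrivial separable extensions contain Galois extensions of prime degree, is
commutative. -/
theorem commutative_of_cyclic_steps {F : Type} [Field F] (hF : FinDivComm F)
    (hN : ∀ (L : Type) [Field L] [Algebra F L] [FiniteDimensional F L] [Algebra.IsSeparable F L],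
      1 < Module.finrank F L → ∃ M : IntermediateField F L,
        (Module.finrank F M).Prime ∧ IsGalois F M)
    {D : Type} [DivisionRing D] [Algebra F D] [Algebra.IsCentral F D] [Algebra.IsAlgebraic F D] :
    ∀ x y : D, x * y = y * x := by
  classical
  by_contra hne
  have hbot : (⊥ : Subalgebra F D) ≠ ⊤ := fun h => hne fun x y => by
    obtain ⟨c, rfl⟩ := Algebra.mem_bot.1 (show x ∈ (⊥ : Subalgebra F D) from h ▸ Algebra.mem_top)
    exact Algebra.commutes c y
  obtain ⟨a, ha, hsep⟩ := JacobsonNoether.exists_separable_and_not_isCentral' hbot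
  have haint : IsIntegral F a := (Algebra.IsAlgebraic.isAlgebraic a).isIntegral
  set f := minpoly F a with hf
  haveI hfirr : Fact (Irreducible f) := ⟨minpoly.irreducible haint⟩
  have hn : 1 < f.natDegree := by
    rcases Nat.lt_or_ge 1 f.natDegree with h | h
    · exact h
    · have h0 : 0 < f.natDegree := minpoly.natDegree_pos haint
      have h1 : f.natDegree = 1 := by omega
      exact absurd (Algebra.mem_bot.2 (minpoly.natDegree_eq_one_iff.1 h1)) ha
  have hf0 : f ≠ 0 := minpoly.ne_zero haint
  haveI : Module.Finite F (AdjoinRoot f) := (AdjoinRoot.powerBasis hf0).finite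
  haveI : Algebra.IsSeparable F (AdjoinRoot f) := by
    have hroot : IsSeparable F (AdjoinRoot.root f) :=
      Polynomial.Separable.of_dvd hsep (minpoly.dvd F _ (by rw [AdjoinRoot.aeval_eq, AdjoinRoot.mk_self]))
    haveI := IntermediateField.isSeparable_adjoin_simple_iff_isSeparable F (AdjoinRoot f) |>.2 hroot
    have htop : IntermediateField.adjoin F {AdjoinRoot.root f} = ⊤ := eq_top_iff.2 fun z _ => by
      induction z using AdjoinRoot.induction_on with
      | ih g =>
        rw [← AdjoinRoot.aeval_eq g]
        exact IntermediateField.algebra_adjoin_le_adjoin F _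
          (Polynomial.aeval_mem_adjoin_singleton F _)
    exact Algebra.IsSeparable.of_algHom F _
      (((IntermediateField.equivOfEq htop).trans IntermediateField.topEquiv).symm.toAlgHom)
  obtain ⟨M, hp, hgal⟩ := hN (AdjoinRoot f)
    (by rw [(AdjoinRoot.powerBasis hf0).finrank, AdjoinRoot.powerBasis_dim]; exact hn)
  haveI := hgal
  set p := Module.finrank F M
  have hcard : Nat.card (M ≃ₐ[F] M) = p := IsGalois.card_aut_eq_finrank F M
  haveI : Nontrivial (M ≃ₐ[F] M) :=
    Finite.one_lt_card_iff_nontrivial.1 (hcard ▸ hp.one_lt)
  obtain ⟨σ, hσ⟩ := exists_ne (1 : M ≃ₐ[F] M)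
  have hσp : σ ^ p = 1 := hcard ▸ pow_card_eq_one'
  let T : Module.End D D :=
    { toFun := fun v => v * a
      map_add' := fun v w => add_mul v w a
      map_smul' := fun r v => mul_assoc r v a }
  have hpoly : ∀ (x : Module.End D D) (P : F[X]) v, aeval x P v = v * aeval (x 1) P := by
    intro x P
    have hx : ∀ v, x v = v * x 1 := fun v => by
      rw [← smul_eq_mul, ← map_smul, smul_eq_mul, mul_one]
    induction P using Polynomial.induction_on' with
    | add g h hg hh => intro v; simp [hg, hh, mul_add]
    | monomial n c =>
      intro v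
      have hn : ∀ v, (x ^ n) v = v * (x 1) ^ n := by
        induction n with
        | zero => intro v; simp
        | succ n ih => intro v; rw [pow_succ, Module.End.mul_apply, ih, hx, pow_succ', mul_assoc]
      simp only [aeval_monomial, Module.End.mul_apply, Module.algebraMap_end_apply, hn,
        Algebra.smul_def]
      rw [← mul_assoc, ← mul_assoc, Algebra.commutes]
  have hend : ∀ x : Module.End D D, IsAlgebraic F x := fun x => by
    obtain ⟨P, hP, hP1⟩ := Algebra.IsAlgebraic.isAlgebraic (R := F) (x 1)
    exact ⟨P, hP, LinearMap.ext fun v => by rw [hpoly, hP1, mul_zero]; rfl⟩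
  have hTf : aeval T f = 0 := LinearMap.ext fun v => by
    rw [hpoly, show T 1 = a from one_mul a, hf, minpoly.aeval, mul_zero]; rfl
  let rho : AdjoinRoot f →ₐ[F] Module.End D D := Ideal.Quotient.liftₐ _ (aeval T) fun g hg => by
    obtain ⟨h, rfl⟩ := Ideal.mem_span_singleton.1 hg
    rw [map_mul, hTf, zero_mul]
  have h := dvd_finrank_crossed hF σ hp hσp hσ D hend (rho.comp M.val)
  rw [Module.finrank_self, Nat.dvd_one] at h
  exact hp.ne_one h

end Vale.Agent.P199
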