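import Mathlib

/-!
Over an uncountable central field, endomorphisms of finite-dimensional spaces over an algebraic
division ring are algebraic (Amitsur's resolvent argument).
-/

namespace Vale.Agent.P199

open Polynomial Cardinal

variable {F : Type*} [Field F] {D : Type*} [DivisionRing D] [Algebra F D]

theorem inv_mem_subalgebra [Algebra.IsAlgebraic F D] (S : Subalgebra F D) {x : D} (hx : x ∈ S) :
    x⁻¹ ∈ S := by
  rcases eq_or_ne x 0 with rfl | h0
  · simp
  have hint : IsIntegral F x := (Algebra.IsAlgebraic.isAlgebraic x).isIntegral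
  let A := Algebra.adjoin F {x}
  haveI : Module.Finite F A := Module.Finite.iff_fg.2 hint.fg_adjoin_singleton
  let xx : A := ⟨x, Algebra.self_mem_adjoin_singleton F x⟩
  let f : A →ₗ[F] A := LinearMap.mulLeft F xx
  have hinj : Function.Injective f := fun a b h =>
    Subtype.ext (mul_left_cancel₀ h0 (congrArg Subtype.val h))
  obtain ⟨y, hy⟩ := LinearMap.surjective_of_injective hinj 1
  have hyx : (y : D) = x⁻¹ := (inv_eq_of_mul_eq_one_right (congrArg Subtype.val hy)).symm
  exact hyx ▸ Algebra.adjoin_le (by simpa using hx) y.2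

theorem countable_rank_adjoin (s : Set D) (hs : s.Countable) :
    Module.rank F (Algebra.adjoin F s) ≤ ℵ₀ := by
  haveI := hs.to_subtype
  have hr : (Submonoid.closure s : Set D).Countable := by
    rw [Submonoid.closure_eq_mrange, MonoidHom.coe_mrange]
    exact Set.countable_range _
  calc Module.rank F (Algebra.adjoin F s)
      = Module.rank F (Subalgebra.toSubmodule (Algebra.adjoin F s)) := rfl
    _ = Module.rank F (Submodule.span F (Submonoid.closure s : Set D)) := by rw [Algebra.adjoin_eq_span]
    _ ≤ #(Submonoid.closure s : Set D) := rank_span_le _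
    _ ≤ ℵ₀ := hr.le_aleph0

variable {V : Type*} [AddCommGroup V] [Module D V] [Module F V] [IsScalarTower F D V]
  [SMulCommClass D F V] [Module.Finite D V]

theorem finite_eigenvalues (x : Module.End D V) :
    {c : F | ∃ v, v ≠ 0 ∧ x v = c • v}.Finite := by
  classical
  by_contra h
  rw [← Set.not_infinite, not_not] at h
  obtain ⟨s, hs, hcard⟩ := h.exists_subset_card_eq (Module.finrank D V + 1)
  choose v hv0 hv using fun c : s => hs c.2
  have key : ∀ (t : Finset s) (d : s → D), ∑ c ∈ t, d c • v c = 0 → ∀ c ∈ t, d c = 0 := by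
    intro t
    induction t using Finset.induction_on with
    | empty => simp
    | insert a t hat ih =>
      intro d hd
      have h1 : ∑ c ∈ t, (d c * algebraMap F D ((c : F) - a)) • v c = 0 := by
        have h2 : ∑ c ∈ insert a t, (d c * algebraMap F D ((c : F) - a)) • v c = 0 := by
          have h3 : x (∑ c ∈ insert a t, d c • v c) - (a : F) • ∑ c ∈ insert a t, d c • v c = 0 := by
            rw [hd, map_zero, smul_zero, sub_zero]
          rw [map_sum, Finset.smul_sum, ← Finset.sum_sub_distrib] at h3
          rw [← h3]
          refine Finset.sum_congr rfl fun c _ => ?_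
          rw [map_smul, hv, mul_smul, algebraMap_smul, sub_smul, smul_sub,
            ← smul_comm (d c) (a : F) (v c)]
        rw [Finset.sum_insert hat, sub_self, map_zero, mul_zero, zero_smul, zero_add] at h2
        exact h2
      have h2 : ∀ c ∈ t, d c = 0 := fun c hc => (mul_eq_zero.1 (ih _ h1 c hc)).resolve_right
        (fun h => hat (by
          have e : (c : F) = a := sub_eq_zero.1 ((algebraMap F D).injective (h.trans (map_zero _).symm))
          rwa [← Subtype.ext e]))
      intro c hc
      rcases Finset.mem_insert.1 hc with rfl | hc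
      · rw [Finset.sum_insert hat, Finset.sum_eq_zero (fun b hb => by rw [h2 b hb, zero_smul]),
          add_zero] at hd
        exact (smul_eq_zero.1 hd).resolve_right (hv0 _)
      · exact h2 c hc
  have hli : LinearIndependent D v := linearIndependent_iff'.2 key
  have := hli.fintype_card_le_finrank
  simp [hcard] at this

/-- Amitsur: over an uncountable central field such endomorphisms are algebraic. -/
theorem isAlgebraic_end [Uncountable F] [Algebra.IsAlgebraic F D] (x : Module.End D V) :
    IsAlgebraic F x := by
  classical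
  let b := Module.finBasis D V
  let ι := Fin (Module.finrank D V)
  let s : Set D := Set.range fun ij : ι × ι => b.repr (x (b ij.1)) ij.2
  let S := Algebra.adjoin F s
  have hunit : ∀ a : S, IsUnit a ∨ a = 0 := fun a => by
    by_cases ha : a = 0
    · exact Or.inr ha
    have h0 : (a : D) ≠ 0 := fun h => ha (Subtype.ext h)
    exact Or.inl ⟨⟨a, ⟨_, inv_mem_subalgebra S a.2⟩, Subtype.ext (mul_inv_cancel₀ h0),
      Subtype.ext (inv_mul_cancel₀ h0)⟩, rfl⟩
  letI : DivisionRing S := DivisionRing.ofIsUnitOrEqZero hunit
  let incl : (ι → S) → V := fun v => ∑ i, (v i : D) • b i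
  have hincl : Function.Injective incl := fun v w h => by
    funext i
    refine Subtype.ext ?_
    have e : ∀ u : ι → S, b.repr (incl u) i = (u i : D) := fun u => by
      show b.repr (∑ k, (u k : D) • b k) i = _
      rw [map_sum, Finsupp.finsetSum_apply, Finset.sum_eq_single i]
      · simp
      · intro k _ hk
        simp [Finsupp.single_eq_of_ne (Ne.symm hk)]
      · simp
    rw [← e v, ← e w, h]
  let x' : Module.End S (ι → S) := Fintype.linearCombination S fun i k =>
    (⟨b.repr (x (b i)) k, Algebra.subset_adjoin ⟨(i, k), rfl⟩⟩ : S)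
  have hx' : ∀ v, incl (x' v) = x (incl v) := by
    intro v
    simp only [incl, x', Fintype.linearCombination_apply, Finset.sum_apply, Pi.smul_apply,
      smul_eq_mul, AddSubmonoidClass.coe_finsetSum, MulMemClass.coe_mul, map_sum, map_smul,
      Finset.sum_smul]
    rw [Finset.sum_comm]
    refine Finset.sum_congr rfl fun i _ => ?_
    simp only [mul_smul, ← Finset.smul_sum]
    rw [b.sum_repr]
  set bad := {c : F | ∃ v, v ≠ 0 ∧ x v = c • v} with hbad
  have hinj : ∀ c : (badᶜ : Set F), Function.Injective (x' - algebraMap F (Module.End S (ι → S)) c) := by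
    intro c
    rw [injective_iff_map_eq_zero]
    intro v hv
    by_contra hv0
    refine c.2 ⟨incl v, fun h => hv0 (hincl (h.trans (by simp [incl]))), ?_⟩
    have e : x' v = (c : F) • v := sub_eq_zero.1 hv
    rw [← hx', e]
    simp [incl, Finset.smul_sum, smul_assoc]
  have hU : ∀ c : (badᶜ : Set F), IsUnit (x' - algebraMap F (Module.End S (ι → S)) c) := fun c =>
    (Module.End.isUnit_iff _).2 ⟨hinj c, LinearMap.surjective_of_injective (hinj c)⟩
  let y : (badᶜ : Set F) → (ι → ι → S) := fun c i => (↑(hU c).unit⁻¹ : Module.End S (ι → S)) (Pi.single i 1)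
  have hdep : ¬ LinearIndependent F y := by
    intro hli
    have h1 := hli.cardinal_lift_le_rank
    have h2 : Module.rank F (ι → ι → S) ≤ ℵ₀ := by
      have hS : Module.rank F S ≤ ℵ₀ := countable_rank_adjoin s (Set.countable_range _)
      simp only [rank_pi, Cardinal.sum_const, Cardinal.mk_fin, Cardinal.lift_natCast, Cardinal.lift_id']
      have hι : Cardinal.lift.{_, 0} #ι ≤ ℵ₀ := by simp [ι]
      refine (mul_le_mul' hι ((mul_le_mul' hι hS).trans_eq Cardinal.aleph0_mul_aleph0)).trans_eq
        Cardinal.aleph0_mul_aleph0
    have h3 : Cardinal.lift #(badᶜ : Set F) ≤ ℵ₀ :=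
      h1.trans ((Cardinal.lift_le.2 h2).trans_eq Cardinal.lift_aleph0)
    rw [Cardinal.lift_le_aleph0, Cardinal.le_aleph0_iff_set_countable] at h3
    exact Set.not_countable_univ (α := F)
      ((Set.union_compl_self bad) ▸ (finite_eigenvalues x).countable.union h3)
  rw [linearIndependent_iff'] at hdep
  push Not at hdep
  obtain ⟨t, α, hsum, c₀, hc₀, hα⟩ := hdep
  let Q : F[X] := ∑ c ∈ t, C (α c) * ∏ e ∈ t.erase c, (X - C (e : F))
  have hQ : Q ≠ 0 := fun h => by
    have h' := congrArg (eval (c₀ : F)) h
    simp only [Q, eval_finsetSum, eval_mul, eval_C, eval_zero, eval_prod, eval_sub, eval_X] at h'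
    rw [Finset.sum_eq_single c₀] at h'
    · refine hα ((mul_eq_zero.1 h').resolve_right (Finset.prod_ne_zero_iff.2 fun e he => ?_))
      exact sub_ne_zero.2 fun he' => (Finset.mem_erase.1 he).1 (Subtype.ext he'.symm)
    · intro c _ hne
      rw [Finset.prod_eq_zero (Finset.mem_erase.2 ⟨hne.symm, hc₀⟩) (sub_self _), mul_zero]
    · exact fun h => absurd hc₀ h
  have hQ' : aeval x' Q = 0 := by
    let R : F[X] := ∏ c ∈ t, (X - C (c : F))
    have hsum' : ∑ c ∈ t, α c • (↑(hU c).unit⁻¹ : Module.End S (ι → S)) = 0 := by
      refine LinearMap.pi_ext' fun i => LinearMap.ext_ring ?_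
      have h := congrFun hsum i
      simpa [y] using h
    have h := congrArg (fun z => aeval x' R * z) hsum'
    simp only [mul_zero, Finset.mul_sum] at h
    rw [← h]
    simp only [Q, map_sum, map_mul, aeval_C]
    refine Finset.sum_congr rfl fun c hc => ?_
    have e : R = (∏ e ∈ t.erase c, (X - C (e : F))) * (X - C (c : F)) :=
      (Finset.prod_erase_mul _ _ hc).symm
    rw [e, map_mul, mul_assoc, mul_smul_comm, show aeval x' (X - C (c : F))
      = x' - algebraMap F (Module.End S (ι → S)) c by simp, IsUnit.mul_val_inv,
      mul_smul_comm, mul_one, Algebra.smul_def]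
  refine ⟨Q, hQ, ?_⟩
  refine b.ext fun i => ?_
  have hpoly : ∀ (P : F[X]) v, incl (aeval x' P v) = aeval x P (incl v) := by
    intro P
    induction P using Polynomial.induction_on' with
    | add p q hp hq =>
      intro v
      simp only [map_add, LinearMap.add_apply]
      rw [← hp v, ← hq v]
      simp [incl, add_smul, Finset.sum_add_distrib]
    | monomial k a =>
      intro v
      have hk : ∀ v, incl ((x' ^ k) v) = (x ^ k) (incl v) := by
        induction k with
        | zero => intro v; rfl
        | succ k ih =>
          intro v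
          rw [pow_succ, pow_succ, Module.End.mul_apply, Module.End.mul_apply, ih, hx']
      simp only [aeval_monomial, Module.End.mul_apply, Module.algebraMap_end_apply]
      rw [← hk v]
      simp [incl, Finset.smul_sum, smul_assoc]
  have hb : incl (Pi.single i 1) = b i := by
    show ∑ k, ((Pi.single i 1 : ι → S) k : D) • b k = b i
    rw [Finset.sum_eq_single i (fun k _ hk => by rw [Pi.single_eq_of_ne hk]; simp) (by simp),
      Pi.single_eq_same]
    simp
  rw [← hb, ← hpoly, hQ']
  simp [incl]

end Vale.Agent.P199
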