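import Mathlib

/-!
A field acting on finite-dimensional spaces over a central division ring: two actions of the same
dimension are isomorphic (Skolem-Noether).
-/

namespace Vale.Agent.P199

open TensorProduct

variable {F : Type*} [Field F] {D : Type*} [DivisionRing D] [Algebra F D] [Algebra.IsCentral F D]
  {K : Type*} [Field K] [Algebra F K] [FiniteDimensional F K]

theorem isSimpleRing_tensor : IsSimpleRing (D ⊗[F] K) := by
  classical
  let bK := Module.finBasis F K
  let bR := Algebra.TensorProduct.basis D bK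
  haveI : Nontrivial (D ⊗[F] K) := Algebra.TensorProduct.nontrivial_of_algebraMap_injective_of_flat_right
    F D K (algebraMap F D).injective
  have hrepr_l : ∀ (d : D) (x : D ⊗[F] K) i, bR.repr ((d ⊗ₜ[F] (1 : K)) * x) i = d * bR.repr x i := by
    intro d x i
    induction x using TensorProduct.induction_on with
    | zero => simp
    | tmul e k => simp [bR, Algebra.TensorProduct.basis_repr_tmul, mul_assoc]
    | add x y hx hy => simp [mul_add, hx, hy]
  have hrepr_r : ∀ (d : D) (x : D ⊗[F] K) i, bR.repr (x * (d ⊗ₜ[F] (1 : K))) i = bR.repr x i * d := by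
    intro d x i
    induction x using TensorProduct.induction_on with
    | zero => simp
    | tmul e k =>
      simp only [Algebra.TensorProduct.tmul_mul_tmul, mul_one, bR,
        Algebra.TensorProduct.basis_repr_tmul, Finsupp.smul_apply, Finsupp.mapRange_apply,
        smul_eq_mul, mul_assoc]
      rw [Algebra.commutes]
    | add x y hx hy => simp [add_mul, hx, hy]
  refine IsSimpleRing.of_eq_bot_or_eq_top fun I => ?_
  by_contra hI
  push Not at hI
  obtain ⟨x₀, hx₀, hx₀0⟩ : ∃ x ∈ I, x ≠ 0 := by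
    by_contra h
    push Not at h
    exact hI.1 (le_bot_iff.1 fun x hx => by simp [h x hx])
  have hne : ∃ m, ∃ x ∈ I, x ≠ 0 ∧ (bR.repr x).support.card = m := ⟨_, x₀, hx₀, hx₀0, rfl⟩
  obtain ⟨x, hxI, hx0, hxm⟩ := Nat.find_spec hne
  obtain ⟨i₀, hi₀⟩ := Finsupp.support_nonempty_iff.2 (bR.repr.map_ne_zero_iff.2 hx0)
  rw [Finsupp.mem_support_iff] at hi₀
  set y := ((bR.repr x i₀)⁻¹ ⊗ₜ[F] (1 : K)) * x with hy
  have hyI : y ∈ I := I.mul_mem_left _ _ hxI
  have hy1 : bR.repr y i₀ = 1 := by rw [hy, hrepr_l, inv_mul_cancel₀ hi₀]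
  have hcomm : ∀ (d : D), (d ⊗ₜ[F] (1 : K)) * y - y * (d ⊗ₜ[F] (1 : K)) = 0 := by
    intro d
    by_contra hz
    refine Nat.find_min hne ?_ ⟨_, I.sub_mem (I.mul_mem_left _ _ hyI) (I.mul_mem_right _ _ hyI), hz, rfl⟩
    rw [← hxm]
    refine Finset.card_lt_card ((Finset.ssubset_iff_of_subset ?_).2 ⟨i₀, Finsupp.mem_support_iff.2 hi₀, ?_⟩)
    · intro i hi
      rw [Finsupp.mem_support_iff] at hi ⊢
      intro h0
      apply hi
      simp [map_sub, hrepr_l, hrepr_r, hy, h0]
    · simp [map_sub, hrepr_l, hrepr_r, hy1]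
  have hcoef : ∀ i, ∃ c : F, algebraMap F D c = bR.repr y i := by
    intro i
    have : bR.repr y i ∈ Subalgebra.center F D := Subalgebra.mem_center_iff.2 fun d => by
      have h := congrArg (fun z => bR.repr z i) (hcomm d)
      simp only [map_sub, hrepr_l, hrepr_r, map_zero, Finsupp.sub_apply, Finsupp.zero_apply] at h
      exact sub_eq_zero.1 h
    exact Algebra.mem_bot.1 (Algebra.IsCentral.out this)
  choose c hc using hcoef
  set k₀ : K := ∑ i, c i • bK i with hk
  have hyk : y = (1 : D) ⊗ₜ[F] k₀ := by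
    rw [← bR.sum_repr y, hk, TensorProduct.tmul_sum]
    refine Finset.sum_congr rfl fun i _ => ?_
    rw [← hc i, Algebra.TensorProduct.basis_apply, TensorProduct.tmul_smul, algebraMap_smul]
  have hk0 : k₀ ≠ 0 := by
    intro h
    rw [h, TensorProduct.tmul_zero] at hyk
    rw [hyk] at hy1
    simp at hy1
  refine hI.2 (eq_top_iff.2 fun z _ => ?_)
  have h := I.mul_mem_left (z * ((1 : D) ⊗ₜ[F] k₀⁻¹)) _ hyI
  rw [hyk, mul_assoc, Algebra.TensorProduct.tmul_mul_tmul, inv_mul_cancel₀ hk0, one_mul,
    ← Algebra.TensorProduct.one_def, mul_one] at h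
  exact h

theorem exists_intertwiner {V W : Type*} [AddCommGroup V] [AddCommGroup W] [Module D V]
    [Module D W] [Module F V] [Module F W] [IsScalarTower F D V] [IsScalarTower F D W]
    [SMulCommClass D F V] [SMulCommClass D F W] [Module.Finite D V] [Module.Finite D W]
    (φ : K →ₐ[F] Module.End D V) (ψ : K →ₐ[F] Module.End D W)
    (hdim : Module.finrank D V = Module.finrank D W) :
    ∃ e : V ≃ₗ[D] W, ∀ k v, e (φ k v) = ψ k (e v) := by
  haveI := isSimpleRing_tensor (F := F) (D := D) (K := K)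
  haveI : Module.Finite D (D ⊗[F] K) :=
    Module.Finite.of_basis (Algebra.TensorProduct.basis D (Module.finBasis F K))
  haveI : IsArtinianRing (D ⊗[F] K) := isArtinian_of_tower D inferInstance
  let hV : D ⊗[F] K →ₐ[F] Module.End F V :=
    Algebra.TensorProduct.lift (Algebra.lsmul F F V)
      ((AlgHom.ofLinearMap
        { toFun := fun f : Module.End D V => (f.restrictScalars F : Module.End F V)
          map_add' := fun _ _ => rfl
          map_smul' := fun _ _ => rfl } rfl fun _ _ => rfl).comp φ)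
      fun d k => LinearMap.ext fun v => ((φ k).map_smul d v).symm
  let hW : D ⊗[F] K →ₐ[F] Module.End F W :=
    Algebra.TensorProduct.lift (Algebra.lsmul F F W)
      ((AlgHom.ofLinearMap
        { toFun := fun f : Module.End D W => (f.restrictScalars F : Module.End F W)
          map_add' := fun _ _ => rfl
          map_smul' := fun _ _ => rfl } rfl fun _ _ => rfl).comp ψ)
      fun d k => LinearMap.ext fun v => ((ψ k).map_smul d v).symm
  have hVt : ∀ d k, hV (d ⊗ₜ[F] k) = (Algebra.lsmul F F V d : Module.End F V)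
      * (φ k).restrictScalars F := fun d k => by simp [hV]; rfl
  have hWt : ∀ d k, hW (d ⊗ₜ[F] k) = (Algebra.lsmul F F W d : Module.End F W)
      * (ψ k).restrictScalars F := fun d k => by simp [hW]; rfl
  letI : Module (D ⊗[F] K) V := Module.compHom V hV.toRingHom
  letI : Module (D ⊗[F] K) W := Module.compHom W hW.toRingHom
  haveI : IsScalarTower D (D ⊗[F] K) V := ⟨fun d r v => by
    show hV (d • r) v = d • hV r v
    induction r using TensorProduct.induction_on with
    | zero => simp
    | tmul e k =>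
      rw [TensorProduct.smul_tmul', hVt, hVt]
      exact mul_smul d e _
    | add x y hx hy => simp [smul_add, hx, hy]⟩
  haveI : IsScalarTower D (D ⊗[F] K) W := ⟨fun d r v => by
    show hW (d • r) v = d • hW r v
    induction r using TensorProduct.induction_on with
    | zero => simp
    | tmul e k =>
      rw [TensorProduct.smul_tmul', hWt, hWt]
      exact mul_smul d e _
    | add x y hx hy => simp [smul_add, hx, hy]⟩
  haveI : Module.Finite (D ⊗[F] K) V := Module.Finite.of_restrictScalars_finite D _ V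
  haveI : Module.Finite (D ⊗[F] K) W := Module.Finite.of_restrictScalars_finite D _ W
  obtain ⟨S, hS⟩ := IsAtomic.exists_atom (Submodule (D ⊗[F] K) (D ⊗[F] K))
  haveI := isSimpleModule_iff_isAtom.2 hS
  have hself := IsSimpleRing.isIsotypic (D ⊗[F] K) (D ⊗[F] K)
  have hV' : IsIsotypicOfType (D ⊗[F] K) V S := fun m _ => by
    obtain ⟨I, ⟨e⟩⟩ := IsSemisimpleRing.exists_linearEquiv_ideal_of_isSimpleModule (D ⊗[F] K) m
    haveI := IsSimpleModule.congr e.symm
    exact ⟨e.trans (hself S I).some⟩
  have hW' : IsIsotypicOfType (D ⊗[F] K) W S := fun m _ => by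
    obtain ⟨I, ⟨e⟩⟩ := IsSemisimpleRing.exists_linearEquiv_ideal_of_isSimpleModule (D ⊗[F] K) m
    haveI := IsSimpleModule.congr e.symm
    exact ⟨e.trans (hself S I).some⟩
  obtain ⟨n, ⟨e₁⟩⟩ := hV'.linearEquiv_fun
  obtain ⟨n', ⟨e₂⟩⟩ := hW'.linearEquiv_fun
  haveI : Module.Finite D S := Module.Finite.trans (D ⊗[F] K) S
  have h1 := (e₁.restrictScalars D).finrank_eq
  have h2 := (e₂.restrictScalars D).finrank_eq
  rw [Module.finrank_pi_fintype] at h1 h2
  simp only [Finset.sum_const, Finset.card_univ, Fintype.card_fin, smul_eq_mul] at h1 h2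
  haveI : Nontrivial S := IsSimpleModule.nontrivial (D ⊗[F] K) S
  have hs : 0 < Module.finrank D S := Module.finrank_pos
  obtain rfl : n = n' := Nat.eq_of_mul_eq_mul_right hs (h1.symm.trans (hdim.trans h2))
  let e := e₁.trans e₂.symm
  refine ⟨e.restrictScalars D, fun k v => ?_⟩
  have h := e.map_smul ((1 : D) ⊗ₜ[F] k) v
  show e (φ k v) = ψ k (e v)
  have hv : ((1 : D) ⊗ₜ[F] k) • v = φ k v := by
    show hV ((1 : D) ⊗ₜ[F] k) v = _
    rw [hVt]
    simp
  have hw : ((1 : D) ⊗ₜ[F] k) • e v = ψ k (e v) := by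
    show hW ((1 : D) ⊗ₜ[F] k) (e v) = _
    rw [hWt]
    simp
  rw [← hv, ← hw]
  exact h

end Vale.Agent.P199
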