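import Vale.Agent.P199.Crossed
import Vale.Agent.P199.Skolem
import Vale.Agent.P199.Resolvent

/-!
Dimensions of representations on spaces over a division ring.
-/

namespace Vale.Agent.P199

variable {F : Type} [Field F] {D : Type} [DivisionRing D] [Algebra F D]

/-- A divisibility of dimensions may be tested on representations with prime central kernel. -/
theorem dvd_finrank_of_prime_reps {A : Type} [Ring A] [Algebra F A] (p : ℕ)
    (h : ∀ (W : Type) [AddCommGroup W] [Module D W] [Module F W] [IsScalarTower F D W]
      [Module.Finite D W] (ψ : A →ₐ[F] Module.End D W), 0 < Module.finrank D W →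
      (∀ x y : A, (∀ a, ψ (x * a) = ψ (a * x)) → ψ (x * y) = 0 → ψ x = 0 ∨ ψ y = 0) →
        p ∣ Module.finrank D W)
    (V : Type) [AddCommGroup V] [Module D V] [Module F V] [IsScalarTower F D V] [Module.Finite D V]
    (ψ : A →ₐ[F] Module.End D V) : p ∣ Module.finrank D V := by
  suffices ∀ (N : ℕ) (V : Type) [AddCommGroup V] [Module D V] [Module F V] [IsScalarTower F D V]
      [Module.Finite D V] (_ : A →ₐ[F] Module.End D V), Module.finrank D V ≤ N →
      p ∣ Module.finrank D V from this _ V ψ le_rfl
  intro N
  induction N with
  | zero => intro V _ _ _ _ _ _ hN; rw [Nat.le_zero.1 hN]; exact dvd_zero p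
  | succ N ih =>
    intro V _ _ _ _ _ ψ hN
    rcases Nat.eq_zero_or_pos (Module.finrank D V) with h0 | h0
    · rw [h0]; exact dvd_zero p
    by_cases hp : ∀ x y : A, (∀ a, ψ (x * a) = ψ (a * x)) → ψ (x * y) = 0 → ψ x = 0 ∨ ψ y = 0
    · exact h V ψ h0 hp
    push Not at hp
    obtain ⟨x, y, hx, hxy, hx0, hy0⟩ := hp
    set W := LinearMap.ker (ψ x) with hW
    have hinv : ∀ (a : A), ∀ v ∈ W, ψ a v ∈ W := by
      intro a v hv
      rw [hW, LinearMap.mem_ker] at hv ⊢
      rw [← Module.End.mul_apply, ← map_mul, hx a, map_mul, Module.End.mul_apply, hv, map_zero]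
    have hbot : W ≠ ⊥ := fun hb => hy0 (LinearMap.ext fun v => by
      have : ψ y v ∈ W := by rw [hW, LinearMap.mem_ker, ← Module.End.mul_apply, ← map_mul, hxy]; rfl
      rw [hb, Submodule.mem_bot] at this
      exact this)
    have htop : W ≠ ⊤ := fun ht => hx0 (LinearMap.ker_eq_top.1 ht)
    have hadd := W.finrank_quotient_add_finrank
    have h1 : 0 < Module.finrank D W := by
      haveI := Submodule.nontrivial_iff_ne_bot.2 hbot
      exact Module.finrank_pos
    have h2 : 0 < Module.finrank D (V ⧸ W) := by
      haveI := Submodule.Quotient.nontrivial_iff.2 htop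
      exact Module.finrank_pos
    let ψ₁ : A →ₐ[F] Module.End D W :=
      { toFun := fun a => (ψ a).restrict (hinv a)
        map_one' := LinearMap.ext fun v => Subtype.ext (by simp)
        map_mul' := fun a b => LinearMap.ext fun v => Subtype.ext (by simp)
        map_zero' := LinearMap.ext fun v => Subtype.ext (by simp)
        map_add' := fun a b => LinearMap.ext fun v => Subtype.ext (by simp)
        commutes' := fun r => LinearMap.ext fun v => Subtype.ext (by simp) }
    let ψ₂ : A →ₐ[F] Module.End D (V ⧸ W) :=
      { toFun := fun a => W.mapQ W (ψ a) (fun v hv => hinv a v hv)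
        map_one' := by ext v; simp
        map_mul' := fun a b => by ext v; simp
        map_zero' := by ext v; simp
        map_add' := fun a b => by ext v; simp
        commutes' := fun r => by ext v; simp }
    rw [← hadd]
    exact dvd_add (ih _ ψ₂ (by omega)) (ih _ ψ₁ (by omega))

/-- A space on which a matrix ring acts has dimension divisible by its size. -/
theorem dvd_finrank_of_matrix {V : Type} [AddCommGroup V] [Module D V] [Module.Finite D V] {q : ℕ}
    {Δ : Type} [Ring Δ] (ψ : Matrix (Fin q) (Fin q) Δ →+* Module.End D V) :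
    q ∣ Module.finrank D V := by
  rcases Nat.eq_zero_or_pos q with rfl | hq
  · have h1 : (1 : Module.End D V) = 0 := by
      rw [← map_one ψ, show (1 : Matrix (Fin 0) (Fin 0) Δ) = 0 from Matrix.ext fun i => i.elim0,
        map_zero]
    have : Subsingleton V := ⟨fun a b => by
      have ha := LinearMap.congr_fun h1 a
      have hb := LinearMap.congr_fun h1 b
      simp at ha hb
      rw [ha, hb]⟩
    rw [Module.finrank_zero_of_subsingleton]
  let E : Fin q → Fin q → Module.End D V := fun i j => ψ (Matrix.single i j 1)
  let o : Fin q := ⟨0, hq⟩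
  let W := LinearMap.range (E o o)
  have hE : ∀ i j k l, E i j * E k l = if j = k then E i l else 0 := by
    intro i j k l
    by_cases h : j = k
    · subst h; simp [E, ← map_mul]
    · simp [E, ← map_mul, h]
  have hWmem : ∀ i v, E o i v ∈ W := fun i v => ⟨E o i v, by
    rw [← Module.End.mul_apply, hE, if_pos rfl]⟩
  have hone : ∀ v, ∑ i, E i o (E o i v) = v := by
    intro v
    have h : ∑ i, E i o * E o i = 1 := by
      simp only [hE, if_pos]
      rw [show (∑ i, E i i) = ψ (∑ i, Matrix.single i i (1 : Δ)) from (map_sum ψ _ _).symm,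
        Matrix.sum_single_one, map_one]
    simpa using LinearMap.congr_fun h v
  let T : V ≃ₗ[D] (Fin q → W) :=
    { toFun := fun v i => ⟨E o i v, hWmem i v⟩
      map_add' := fun v w => by funext i; simp [Subtype.ext_iff]
      map_smul' := fun r v => by funext i; simp [Subtype.ext_iff]
      invFun := fun f => ∑ i, E i o (f i : V)
      left_inv := hone
      right_inv := fun f => by
        funext j
        refine Subtype.ext ?_
        show E o j (∑ i, E i o (f i : V)) = (f j : V)
        rw [map_sum, Finset.sum_eq_single j]
        · obtain ⟨w, hw⟩ := (f j).2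
          rw [← Module.End.mul_apply, hE, if_pos rfl, ← hw, ← Module.End.mul_apply, hE, if_pos rfl]
        · intro i _ hi
          rw [← Module.End.mul_apply, hE, if_neg (Ne.symm hi)]
          rfl
        · simp }
  exact ⟨Module.finrank D W, by rw [T.finrank_eq, Module.finrank_pi_fintype]; simp⟩

/-- A field with an automorphism of prime order acting on a space over a central division ring,
all of whose endomorphisms are algebraic, forces that prime to divide the dimension. -/
theorem dvd_finrank_crossed [Algebra.IsCentral F D] (hF : FinDivComm F)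
    {K : Type} [Field K] [Algebra F K] [FiniteDimensional F K] (σ : K ≃ₐ[F] K) {p : ℕ}
    (hp : p.Prime) (hσp : σ ^ p = 1) (hσ : σ ≠ 1)
    (V : Type) [AddCommGroup V] [Module D V] [Module F V] [IsScalarTower F D V] [Module.Finite D V]
    (hend : ∀ x : Module.End D V, IsAlgebraic F x)
    (φ : K →ₐ[F] Module.End D V) : p ∣ Module.finrank D V := by
  classical
  obtain ⟨e, he⟩ := exists_intertwiner φ (φ.comp σ.toAlgHom) rfl
  set u : Module.End D V := e.toLinearMap with hudef
  have hu : ∀ k, u * φ k = φ (σ k) * u := fun k => LinearMap.ext fun v => he k v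
  set A := Algebra.adjoin F (Set.range φ ∪ {u}) with hA
  have hupow : ∀ (i : ℕ) k, u ^ i * φ k = φ ((σ ^ i) k) * u ^ i := by
    intro i
    induction i with
    | zero => simp
    | succ i ih =>
      intro k
      rw [pow_succ, mul_assoc, hu, ← mul_assoc, ih, pow_succ σ, AlgEquiv.mul_apply, mul_assoc]
  -- a finite spanning set
  haveI : Module.Finite F A := by
    let P := Algebra.adjoin F {u}
    haveI : Module.Finite F P :=
      Module.Finite.iff_fg.2 (hend u).isIntegral.fg_adjoin_singleton
    let S : Submodule F (Module.End D V) :=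
      Subalgebra.toSubmodule φ.range * Subalgebra.toSubmodule P
    have hfg : S.FG := (Module.Finite.iff_fg.1
      (Module.Finite.of_surjective φ.rangeRestrict.toLinearMap φ.rangeRestrict_surjective)).mul
      (hend u).isIntegral.fg_adjoin_singleton
    have hswap : ∀ x ∈ P, ∀ k, x * φ k ∈ S := by
      intro x hx k
      replace hx : x ∈ Algebra.adjoin F {u} := hx
      rw [Algebra.adjoin_singleton_eq_range_aeval] at hx
      obtain ⟨f, rfl⟩ := hx
      simp only [RingHom.coe_coe, Polynomial.aeval_eq_sum_range, Finset.sum_mul, smul_mul_assoc, hupow,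
        AlgHom.toRingHom_eq_coe]
      exact S.sum_mem fun i _ => S.smul_mem _
        (Submodule.mul_mem_mul ⟨_, rfl⟩ (P.pow_mem (Algebra.self_mem_adjoin_singleton F u) i))
    have hle : Subalgebra.toSubmodule A ≤ S := by
      intro x hx
      induction hx using Algebra.adjoin_induction with
      | mem x hx =>
        rcases hx with ⟨k, rfl⟩ | rfl
        · simpa using Submodule.mul_mem_mul (show φ k ∈ Subalgebra.toSubmodule φ.range from ⟨k, rfl⟩)
            (show (1 : Module.End D V) ∈ Subalgebra.toSubmodule P from P.one_mem)
        · simpa using Submodule.mul_mem_mul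
            (show (1 : Module.End D V) ∈ Subalgebra.toSubmodule φ.range from φ.range.one_mem)
            (show u ∈ Subalgebra.toSubmodule P from Algebra.self_mem_adjoin_singleton F u)
      | algebraMap r =>
        simpa using Submodule.mul_mem_mul
          (show algebraMap F (Module.End D V) r ∈ Subalgebra.toSubmodule φ.range from
            φ.range.algebraMap_mem r)
          (show (1 : Module.End D V) ∈ Subalgebra.toSubmodule P from P.one_mem)
      | add x y _ _ hx hy => exact S.add_mem hx hy
      | mul x y _ _ hx hy =>
        refine Submodule.mul_induction_on (C := fun x => x * y ∈ S) hx (fun a ha b hb => ?_)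
          fun a b ha hb => by rw [add_mul]; exact S.add_mem ha hb
        refine Submodule.mul_induction_on (C := fun y => a * b * y ∈ S) hy (fun c hc d hd => ?_)
          fun c d hc hd => by rw [mul_add]; exact S.add_mem hc hd
        obtain ⟨k, rfl⟩ := hc
        show a * b * (φ k * d) ∈ S
        rw [show a * b * (φ k * d) = a * (b * φ k) * d by simp only [mul_assoc]]
        refine Submodule.mul_induction_on (C := fun z => a * z * d ∈ S) (hswap b hb k)
          (fun g hg f hf => ?_) fun g f hg hf => by rw [mul_add, add_mul]; exact S.add_mem hg hf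
        rw [← mul_assoc a, mul_assoc (a * g)]
        exact Submodule.mul_mem_mul (φ.range.mul_mem ha hg) (P.mul_mem hf hd)
    haveI := Module.Finite.iff_fg.2 hfg
    exact Module.Finite.of_injective (Submodule.inclusion hle) (Submodule.inclusion_injective hle)
  let uA : A := ⟨u, Algebra.subset_adjoin (Or.inr rfl)⟩
  let φA : K →ₐ[F] A := φ.codRestrict A fun k => Algebra.subset_adjoin (Or.inl ⟨k, rfl⟩)
  have hunit : IsUnit uA := by
    have hinj : Function.Injective (LinearMap.mulLeft F uA) := fun a b h => Subtype.ext
      (LinearMap.ext fun v => e.injective (LinearMap.congr_fun (congrArg Subtype.val h) v))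
    obtain ⟨w, hw⟩ := LinearMap.surjective_of_injective hinj 1
    refine ⟨⟨uA, w, hw, ?_⟩, rfl⟩
    exact hinj (show uA * (w * uA) = uA * 1 by
      rw [← mul_assoc, show uA * w = 1 from hw, one_mul, mul_one])
  refine dvd_finrank_of_prime_reps (D := D) p (fun W _ _ _ _ _ ψ hW hprime => ?_) V A.val
  haveI : Nontrivial W := Module.nontrivial_of_finrank_pos hW
  let B := ψ.range
  haveI : Module.Finite F B :=
    Module.Finite.of_surjective ψ.rangeRestrict.toLinearMap ψ.rangeRestrict_surjective
  haveI : Nontrivial B := ⟨⟨0, 1, fun h => by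
    obtain ⟨v, hv⟩ := exists_ne (0 : W)
    exact hv (LinearMap.congr_fun (congrArg Subtype.val h) v).symm⟩⟩
  let κ : K →ₐ[F] B := ψ.rangeRestrict.comp φA
  let U : Bˣ := (hunit.map ψ.rangeRestrict).unit
  have hgenA : Algebra.adjoin F (Set.range φA ∪ {uA}) = ⊤ := by
    refine (Subalgebra.map_injective (f := A.val) Subtype.val_injective ?_)
    rw [AlgHom.map_adjoin, Algebra.map_top, Subalgebra.range_val, Set.image_union,
      Set.image_singleton, ← Set.range_comp]
    rfl
  have hgen : Algebra.adjoin F (Set.range κ ∪ {(U : B)}) = ⊤ := by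
    have h := congrArg (Subalgebra.map ψ.rangeRestrict) hgenA
    rw [AlgHom.map_adjoin, Algebra.map_top, Set.image_union, Set.image_singleton,
      ← Set.range_comp, (AlgHom.range_eq_top _).2 ψ.rangeRestrict_surjective] at h
    exact h
  obtain ⟨q, Δ, iR, iA, hpq, ⟨f⟩⟩ := exists_matrix κ σ hF hp hσp hσ U
    (fun k => by
      show ψ.rangeRestrict uA * ψ.rangeRestrict (φA k)
        = ψ.rangeRestrict (φA (σ k)) * ψ.rangeRestrict uA
      rw [← map_mul, ← map_mul]
      exact congrArg _ (Subtype.ext (hu k)))
    hgen
    (fun x hx hx0 y hxy => by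
      obtain ⟨a, rfl⟩ := ψ.rangeRestrict_surjective x
      obtain ⟨b, rfl⟩ := ψ.rangeRestrict_surjective y
      have hc : ∀ c, ψ (a * c) = ψ (c * a) := fun c => by
        have h := congrArg Subtype.val (hx (ψ.rangeRestrict c))
        rw [map_mul, map_mul]
        exact h
      rcases hprime a b hc (by simpa [map_mul] using congrArg Subtype.val hxy) with h | h
      · exact absurd (Subtype.ext h) hx0
      · exact Subtype.ext h)
  exact hpq.trans (dvd_finrank_of_matrix (D := D) ((B.val.comp f).toRingHom))

end Vale.Agent.P199
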