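import Vale.Agent.P199.Centre

/-!
When some finite extension of an uncountable field has no noncommutative finite-dimensional division
algebras, algebraic division algebras are finite over their centres and locally finite.
-/

namespace Vale.Agent.P199

open TensorProduct Polynomial

/-- Right multiplication, as an endomorphism of the regular left module, transfers algebraicity. -/
theorem isAlgebraic_tensor {Z : Type} [Field Z] [Uncountable Z] {D : Type} [DivisionRing D]
    [Algebra Z D] [Algebra.IsAlgebraic Z D] {K : Type} [Field K] [Algebra Z K]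
    [FiniteDimensional Z K] (x : D ⊗[Z] K) : IsAlgebraic Z x := by
  haveI : Module.Finite D (D ⊗[Z] K) :=
    Module.Finite.of_basis (Algebra.TensorProduct.basis D (Module.finBasis Z K))
  let T : Module.End D (D ⊗[Z] K) :=
    { toFun := fun v => v * x
      map_add' := fun v w => add_mul v w x
      map_smul' := fun r v => smul_mul_assoc r v x }
  obtain ⟨P, hP, hPT⟩ := isAlgebraic_end (F := Z) T
  refine ⟨P, hP, ?_⟩
  have key : ∀ (Q : Z[X]) v, aeval T Q v = v * aeval x Q := by
    intro Q
    induction Q using Polynomial.induction_on' with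
    | add f g hf hg => intro v; simp [hf, hg, mul_add]
    | monomial n c =>
      intro v
      have hn : ∀ v, (T ^ n) v = v * x ^ n := by
        induction n with
        | zero => intro v; simp
        | succ n ih =>
          intro v
          rw [pow_succ, Module.End.mul_apply, ih, pow_succ', ← mul_assoc]
          rfl
      simp only [aeval_monomial, Module.End.mul_apply, Module.algebraMap_end_apply, hn]
      rw [Algebra.smul_def, ← mul_assoc, ← mul_assoc, Algebra.commutes]
  have h := key P 1
  rw [hPT, one_mul] at h
  exact h.symm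

/-- Over an uncountable centre which becomes split by a finite extension, an algebraic division
ring is finite-dimensional. -/
theorem finite_of_split_extension {Z : Type} [Field Z] [Uncountable Z] {K : Type} [Field K]
    [Algebra Z K] [FiniteDimensional Z K] (hK : FinDivComm K) {D : Type} [DivisionRing D]
    [Algebra Z D] [Algebra.IsCentral Z D] [Algebra.IsAlgebraic Z D] : Module.Finite Z D := by
  classical
  haveI : Uncountable K := (algebraMap Z K).injective.uncountable
  haveI := isSimpleRing_tensor (F := Z) (D := D) (K := K)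
  haveI : Module.Finite D (D ⊗[Z] K) :=
    Module.Finite.of_basis (Algebra.TensorProduct.basis D (Module.finBasis Z K))
  haveI : IsArtinianRing (D ⊗[Z] K) := isArtinian_of_tower D inferInstance
  let cm := Algebra.TensorProduct.comm Z K D
  haveI : IsArtinianRing (K ⊗[Z] D) := cm.symm.toRingEquiv.isArtinianRing
  haveI : IsSimpleRing (K ⊗[Z] D) :=
    IsSimpleRing.of_ringEquiv cm.symm.toRingEquiv inferInstance
  obtain ⟨n, hn, Δ, iΔ, iA, ⟨e⟩⟩ :=
    IsSimpleRing.exists_algEquiv_matrix_divisionRing K (K ⊗[Z] D)
  letI : Algebra Z Δ := Algebra.compHom Δ (algebraMap Z K)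
  haveI : IsScalarTower Z K Δ := IsScalarTower.of_algebraMap_eq fun _ => rfl
  let g : Δ →ₐ[Z] D ⊗[Z] K := cm.toAlgHom.comp
    ((e.symm.toAlgHom.comp (Matrix.scalarAlgHom (Fin n) K)).restrictScalars Z)
  have hg : Function.Injective g :=
    (cm.injective.comp e.symm.injective).comp fun a b h => Matrix.scalar_inj.1 h
  haveI : Algebra.IsAlgebraic Z Δ :=
    ⟨fun d => (isAlgebraic_algHom_iff g hg).1 (isAlgebraic_tensor _)⟩
  haveI : Algebra.IsAlgebraic K Δ := Algebra.IsAlgebraic.tower_top (K := Z) _
  have hcomm := commutative_of_algebraic hK (D := Δ)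
  haveI : Algebra.IsCentral K (K ⊗[Z] D) := by
    refine ⟨fun y hy => ?_⟩
    let bK := Module.finBasis Z K
    let bR := Algebra.TensorProduct.basis D bK
    have hrepr : ∀ (d : D) (z : D ⊗[Z] K) i,
        bR.repr ((d ⊗ₜ[Z] (1 : K)) * z) i = d * bR.repr z i ∧
        bR.repr (z * (d ⊗ₜ[Z] (1 : K))) i = bR.repr z i * d := by
      intro d z i
      induction z using TensorProduct.induction_on with
      | zero => simp
      | tmul u k =>
        constructor
        · simp [bR, Algebra.TensorProduct.basis_repr_tmul, mul_assoc]
        · simp only [Algebra.TensorProduct.tmul_mul_tmul, mul_one, bR,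
            Algebra.TensorProduct.basis_repr_tmul, Finsupp.smul_apply, Finsupp.mapRange_apply,
            smul_eq_mul, mul_assoc]
          rw [Algebra.commutes]
      | add u v hu hv => simp [mul_add, add_mul, hu.1, hu.2, hv.1, hv.2]
    have hcoef : ∀ i, ∃ c : Z, algebraMap Z D c = bR.repr (cm y) i := by
      intro i
      have : bR.repr (cm y) i ∈ Subalgebra.center Z D := Subalgebra.mem_center_iff.2 fun d => by
        rw [← (hrepr d (cm y) i).1, ← (hrepr d (cm y) i).2]
        have h := congrArg cm (Subalgebra.mem_center_iff.1 hy ((1 : K) ⊗ₜ[Z] d))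
        rw [map_mul, map_mul] at h
        simp only [cm, Algebra.TensorProduct.comm_tmul] at h
        rw [h]
      exact Algebra.mem_bot.1 (Algebra.IsCentral.out this)
    choose c hc using hcoef
    refine Algebra.mem_bot.2 ⟨∑ i, c i • bK i, cm.injective ?_⟩
    rw [← bR.sum_repr (cm y)]
    show cm ((∑ i, c i • bK i) ⊗ₜ[Z] (1 : D)) = _
    rw [Algebra.TensorProduct.comm_tmul, TensorProduct.tmul_sum]
    refine Finset.sum_congr rfl fun i _ => ?_
    rw [← hc i, Algebra.TensorProduct.basis_apply, TensorProduct.tmul_smul, algebraMap_smul]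
  haveI : Module.Finite K Δ := by
    refine Module.Finite.of_surjective (Algebra.linearMap K Δ) fun d => ?_
    have hz : e.symm (Matrix.scalar (Fin n) d) ∈ Subalgebra.center K (K ⊗[Z] D) :=
      Subalgebra.mem_center_iff.2 fun w => e.injective (by
        rw [map_mul, map_mul, AlgEquiv.apply_symm_apply]
        exact (Matrix.scalar_commute d (fun r => hcomm d r) _).symm.eq)
    obtain ⟨c, hc⟩ := Algebra.mem_bot.1 (Algebra.IsCentral.out hz)
    refine ⟨c, (Matrix.scalar_inj (n := Fin n)).1 ?_⟩
    show Matrix.scalar (Fin n) (algebraMap K Δ c) = _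
    rw [← e.apply_symm_apply (Matrix.scalar (Fin n) d), ← hc, AlgEquiv.commutes]
    rfl
  haveI : Module.Finite K (K ⊗[Z] D) := Module.Finite.equiv e.symm.toLinearEquiv
  haveI : Module.Finite Z (K ⊗[Z] D) := Module.Finite.trans K _
  exact Module.Finite.of_injective
    (Algebra.TensorProduct.includeRight (R := Z) (A := K) (B := D)).toLinearMap
    (Algebra.TensorProduct.includeRight_injective (algebraMap Z K).injective)

/-- An algebraic division algebra over an uncountable field with a split finite extension is
finite over its centre, and locally finite over the ground field. -/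
theorem centreFinite_of_algebraic {k : Type} [Field k] [Uncountable k] {k' : Type} [Field k']
    [Algebra k k'] [FiniteDimensional k k'] (hk : FinDivComm k') {D : Type} [DivisionRing D]
    [Algebra k D] [Algebra.IsAlgebraic k D] :
    Module.Finite (Subring.center D) D ∧
      ∀ s : Finset D, Module.Finite k (Algebra.adjoin k (s : Set D)) := by
  let Z := Subring.center D
  letI : Algebra k Z := ((algebraMap k D).codRestrict Z fun r =>
    Subring.mem_center_iff.2 fun d => (Algebra.commutes r d).symm).toAlgebra
  haveI : IsScalarTower k Z D := IsScalarTower.of_algebraMap_eq fun _ => rfl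
  haveI : Algebra.IsAlgebraic k Z :=
    Algebra.IsAlgebraic.of_injective (IsScalarTower.toAlgHom k Z D) Subtype.val_injective
  haveI : Algebra.IsAlgebraic Z D := Algebra.IsAlgebraic.tower_top (K := k) _
  haveI : Uncountable Z := (algebraMap k Z).injective.uncountable
  haveI : Algebra.IsCentral Z D := ⟨fun z hz => Algebra.mem_bot.2
    ⟨⟨z, Subring.mem_center_iff.2 fun d => Subalgebra.mem_center_iff.1 hz d⟩, rfl⟩⟩
  haveI : Nontrivial (Z ⊗[k] k') := Algebra.TensorProduct.nontrivial_of_algebraMap_injective_of_flat_right
    k Z k' (algebraMap k Z).injective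
  obtain ⟨m, hm⟩ := Ideal.exists_maximal (Z ⊗[k] k')
  let K := (Z ⊗[k] k') ⧸ m
  letI : Field K := Ideal.Quotient.field m
  haveI : Module.Finite Z (Z ⊗[k] k') := Module.Finite.base_change k Z k'
  haveI : Module.Finite Z K :=
    Module.Finite.of_surjective (Ideal.Quotient.mkₐ Z m).toLinearMap
      (Ideal.Quotient.mkₐ_surjective Z m)
  let mk : Z ⊗[k] k' →ₐ[k] K := Ideal.Quotient.mkₐ k m
  let j : k' →ₐ[k] K := mk.comp Algebra.TensorProduct.includeRight
  letI : Algebra k' K := j.toRingHom.toAlgebra
  haveI : IsScalarTower k k' K := IsScalarTower.of_algHom j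
  haveI : Algebra.IsAlgebraic k' K := by
    refine ⟨fun y => IsIntegral.isAlgebraic ?_⟩
    obtain ⟨y, rfl⟩ := Ideal.Quotient.mkₐ_surjective k m y
    induction y using TensorProduct.induction_on with
    | zero => rw [map_zero]; exact isIntegral_zero
    | tmul z c =>
      have e : mk (z ⊗ₜ[k] c) = mk (z ⊗ₜ[k] 1) * algebraMap k' K c := by
        show _ = _ * mk (1 ⊗ₜ[k] c)
        rw [← map_mul, Algebra.TensorProduct.tmul_mul_tmul, mul_one, one_mul]
      show IsIntegral k' (mk (z ⊗ₜ[k] c))
      rw [e]
      exact (((Algebra.IsAlgebraic.isAlgebraic (R := k) z).isIntegral).map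
        (mk.comp Algebra.TensorProduct.includeLeft)).tower_top.mul isIntegral_algebraMap
    | add a b ha hb => rw [map_add]; exact ha.add hb
  haveI : Module.Finite Z D := finite_of_split_extension (finDivComm_of_algebraic (Z := K) hk)
  refine ⟨inferInstance, fun s => ?_⟩
  obtain ⟨A₀, hA₀, hs⟩ := exists_finite_subalgebra (k := k) (Z := Z) s
  exact Module.Finite.of_injective (Subalgebra.inclusion (Algebra.adjoin_le hs)).toLinearMap
    (Subalgebra.inclusion_injective (Algebra.adjoin_le hs))

/-- Amitsur: a division algebra finitely generated over an uncountable field is algebraic. -/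
theorem isAlgebraic_of_finiteType {k : Type} [Field k] [Uncountable k] {D : Type} [DivisionRing D]
    [Algebra k D] [Algebra.FiniteType k D] : Algebra.IsAlgebraic k D := by
  classical
  refine ⟨fun a => ?_⟩
  by_contra hna
  obtain ⟨s, hs⟩ := ‹Algebra.FiniteType k D›.out
  have hrank : Module.rank k D ≤ Cardinal.aleph0 := by
    have h := countable_rank_adjoin (F := k) (s : Set D) s.finite_toSet.countable
    rw [hs] at h
    exact ((Subalgebra.topEquiv (R := k) (A := D)).toLinearEquiv.rank_eq).symm.le.trans h
  have hne : ∀ c : k, a - algebraMap k D c ≠ 0 := fun c h => hna ⟨X - C c, X_sub_C_ne_zero c, by simp [h]⟩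
  have hli : LinearIndependent k fun c : k => (a - algebraMap k D c)⁻¹ := by
    rw [linearIndependent_iff']
    intro t g hsum c₀ hc₀
    let Q : k[X] := ∑ c ∈ t, C (g c) * ∏ e ∈ t.erase c, (X - C e)
    have hQa : aeval a Q = 0 := by
      have h := congrArg (fun z => aeval a (∏ e ∈ t, (X - C e)) * z) hsum
      simp only [mul_zero, Finset.mul_sum] at h
      rw [← h, map_sum]
      refine Finset.sum_congr rfl fun c hc => ?_
      rw [← Finset.prod_erase_mul t _ hc, map_mul, map_mul, map_sub, aeval_X, aeval_C, aeval_C,
        mul_assoc, mul_smul_comm, mul_inv_cancel₀ (hne c), mul_smul_comm, mul_one, Algebra.smul_def]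
    have hQ : Q = 0 := by
      by_contra hQ
      exact hna ⟨Q, hQ, hQa⟩
    have h := congrArg (eval c₀) hQ
    simp only [Q, eval_finsetSum, eval_mul, eval_C, eval_zero, eval_prod, eval_sub, eval_X] at h
    rw [Finset.sum_eq_single c₀] at h
    · exact (mul_eq_zero.1 h).resolve_right
        (Finset.prod_ne_zero_iff.2 fun e he => sub_ne_zero.2 (Finset.mem_erase.1 he).1.symm)
    · intro c _ hne'
      rw [Finset.prod_eq_zero (Finset.mem_erase.2 ⟨hne'.symm, hc₀⟩) (sub_self _), mul_zero]
    · exact fun h => absurd hc₀ h
  have h : Cardinal.mk k ≤ Cardinal.aleph0 := hli.cardinal_le_rank.trans hrank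
  exact (Cardinal.aleph0_lt_mk_iff.2 ‹Uncountable k›).not_ge h

end Vale.Agent.P199
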